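import Vale.Agent.P054.W.Warren

/-! P054, block W, part 3: Warren's bound on affine flats, and the number of cells of a
family of polynomials entered by a flat. -/

namespace Vale.Agent.P054.W

open MvPolynomial

variable {d k : ℕ}

theorem totalDegree_aeval_le (L : Fin d → MvPolynomial (Fin k) ℝ) (δ : ℕ)
    (hL : ∀ i, (L i).totalDegree ≤ δ) (p : MvPolynomial (Fin d) ℝ) :
    (aeval L p).totalDegree ≤ δ * p.totalDegree := by
  conv_lhs => rw [p.as_sum, map_sum]
  refine totalDegree_finsetSum_le fun m hm => ?_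
  rw [aeval_monomial, Finsupp.prod_fintype _ _ (fun i => pow_zero _)]
  refine (totalDegree_mul _ _).trans ?_
  have h1 : (algebraMap ℝ (MvPolynomial (Fin k) ℝ) (coeff m p)).totalDegree = 0 :=
    totalDegree_C _
  rw [h1, zero_add]
  refine (totalDegree_finsetProd _ _).trans ?_
  have h2 := le_totalDegree hm
  rw [Finsupp.sum_fintype _ _ (fun _ => rfl)] at h2
  calc ∑ i, (L i ^ m i).totalDegree ≤ ∑ i, δ * m i :=
        Finset.sum_le_sum fun i _ => (totalDegree_pow _ _).trans (by
          rw [mul_comm]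
          exact Nat.mul_le_mul_right _ (hL i))
    _ = δ * ∑ i, m i := by rw [Finset.mul_sum]
    _ ≤ δ * p.totalDegree := Nat.mul_le_mul_left δ h2

theorem eval_aeval (L : Fin d → MvPolynomial (Fin k) ℝ) (y : Fin k → ℝ)
    (p : MvPolynomial (Fin d) ℝ) :
    eval y (aeval L p) = eval (fun i => eval y (L i)) p := by
  have h := eval₂_comp_left (eval y) (algebraMap ℝ (MvPolynomial (Fin k) ℝ)) L p
  rw [aeval_def, h]
  have h2 : (eval y).comp (algebraMap ℝ (MvPolynomial (Fin k) ℝ)) = RingHom.id ℝ := by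
    ext a
    simp
  rw [h2]
  rfl

/-- sign patterns on a polynomially parametrised `k`-dimensional piece: points `φ(y)`,
`φ_i = L_i(y)` of degree at most `δ`; `δ = 1` is an affine flat. -/
theorem card_signs_param_le {ι : Type*} [Fintype ι] (f : ι → MvPolynomial (Fin d) ℝ)
    (L : Fin d → MvPolynomial (Fin k) ℝ) (δ : ℕ) (hL : ∀ i, (L i).totalDegree ≤ δ) (D : ℕ)
    (hD : ∑ j, (f j).totalDegree ≤ D) (S : Finset (Fin d → ℝ))
    (hSL : ∀ s ∈ S, ∃ y : Fin k → ℝ, ∀ i, s i = eval y (L i))
    (hS : ∀ s ∈ S, ∀ j, eval s (f j) ≠ 0)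
    (hinj : ∀ s ∈ S, ∀ t ∈ S, (∀ j, 0 < eval s (f j) * eval t (f j)) → s = t) :
    S.card ≤ (2 * (δ * D) + 1) ^ k := by
  classical
  have hex : ∀ s : S, ∃ y : Fin k → ℝ, ∀ i, s.1 i = eval y (L i) := fun s => hSL s.1 s.2
  choose g hg using hex
  have hg' : ∀ s : S, (fun i => eval (g s) (L i)) = s.1 := fun s => by
    ext i; exact (hg s i).symm
  have hginj : Function.Injective g := fun s t hst => by
    refine Subtype.ext ?_
    rw [← hg' s, ← hg' t, hst]
  have h := card_signs_le (fun j => aeval L (f j)) (δ * D) ?_ (Finset.univ.image g) ?_ ?_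
  · rwa [Finset.card_image_of_injective _ hginj, Finset.card_univ, Fintype.card_coe] at h
  · calc ∑ j, (aeval L (f j)).totalDegree ≤ ∑ j, δ * (f j).totalDegree :=
          Finset.sum_le_sum fun j _ => totalDegree_aeval_le L δ hL (f j)
      _ = δ * ∑ j, (f j).totalDegree := by rw [Finset.mul_sum]
      _ ≤ δ * D := Nat.mul_le_mul_left δ hD
  · intro y hy j
    obtain ⟨s, _, rfl⟩ := Finset.mem_image.mp hy
    rw [eval_aeval, hg']
    exact hS s.1 s.2 j
  · intro y hy z hz hyz
    obtain ⟨s, _, rfl⟩ := Finset.mem_image.mp hy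
    obtain ⟨t, _, rfl⟩ := Finset.mem_image.mp hz
    have : s.1 = t.1 := hinj s.1 s.2 t.1 t.2 fun j => by
      have := hyz j
      rwa [eval_aeval, eval_aeval, hg', hg'] at this
    rw [Subtype.ext this]

/-- cells entered: if every cell `c` of a finite set `C` of sign vectors contains a point of
the parametrised piece `T`, then `C` has at most `(2 δ D + 1)^k` elements. -/
theorem card_cells_param_le {ι : Type*} [Fintype ι] (f : ι → MvPolynomial (Fin d) ℝ)
    (L : Fin d → MvPolynomial (Fin k) ℝ) (δ : ℕ) (hL : ∀ i, (L i).totalDegree ≤ δ) (D : ℕ)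
    (hD : ∑ j, (f j).totalDegree ≤ D) (C : Finset (ι → Bool))
    (hC : ∀ c ∈ C, ∃ y : Fin k → ℝ, ∀ j, eval (fun i => eval y (L i)) (f j) ≠ 0 ∧
      (c j = true ↔ 0 < eval (fun i => eval y (L i)) (f j))) :
    C.card ≤ (2 * (δ * D) + 1) ^ k := by
  classical
  have hex : ∀ c : C, ∃ y : Fin k → ℝ, ∀ j, eval (fun i => eval y (L i)) (f j) ≠ 0 ∧
      (c.1 j = true ↔ 0 < eval (fun i => eval y (L i)) (f j)) := fun c => hC c.1 c.2
  choose g hg using hex
  let φ : C → (Fin d → ℝ) := fun c i => eval (g c) (L i)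
  have hkey : ∀ c c' : C, (∀ j, 0 < eval (φ c) (f j) * eval (φ c') (f j)) → c = c' := by
    intro c c' h
    refine Subtype.ext (funext fun j => ?_)
    have h1 := hg c j
    have h2 := hg c' j
    have h3 := h j
    rw [Bool.eq_iff_iff, h1.2, h2.2]
    constructor
    · intro h4
      exact (pos_iff_pos_of_mul_pos h3).mp h4
    · intro h4
      exact (pos_iff_pos_of_mul_pos h3).mpr h4
  have hφinj : Function.Injective φ := by
    intro c c' h
    refine hkey c c' fun j => ?_
    rw [h]
    have := (hg c' j).1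
    have h5 : eval (φ c') (f j) ≠ 0 := this
    exact mul_self_pos.mpr h5
  have h := card_signs_param_le f L δ hL D hD (Finset.univ.image φ) ?_ ?_ ?_
  · rwa [Finset.card_image_of_injective _ hφinj, Finset.card_univ, Fintype.card_coe] at h
  · intro s hs
    obtain ⟨c, _, rfl⟩ := Finset.mem_image.mp hs
    exact ⟨g c, fun i => rfl⟩
  · intro s hs j
    obtain ⟨c, _, rfl⟩ := Finset.mem_image.mp hs
    exact (hg c j).1
  · intro s hs t ht h
    obtain ⟨c, _, rfl⟩ := Finset.mem_image.mp hs
    obtain ⟨c', _, rfl⟩ := Finset.mem_image.mp ht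
    rw [hkey c c' h]

end Vale.Agent.P054.W
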