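import Mathlib
import Vale.Agent.P041.SE.Ham

/-! P054, block W, part 7: polynomial partitioning of a finite family of points of `R^f`
in every dimension `f ≥ 1`: `f * m` polynomials with degree sum at most `2 f^2 2^m`, every open
sign cell contains at most the fraction `2^(-f m)` of the family. -/

namespace Vale.Agent.P054.W

open Finset MvPolynomial

variable {f : ℕ}

theorem finrank_restrict_ge (f e : ℕ) :
    (e + 1) ^ f ≤ Module.finrank ℝ (restrictTotalDegree (Fin f) ℝ (f * e)) := by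
  classical
  let m : (Fin f → Fin (e+1)) → (Fin f →₀ ℕ) := fun g =>
    Finsupp.equivFunOnFinite.symm (fun i => (g i : ℕ))
  have hm : Function.Injective m := by
    intro g g' h
    have h2 := Finsupp.equivFunOnFinite.symm.injective h
    funext i
    exact Fin.ext (congrFun h2 i)
  have hdeg : ∀ g, (monomial (m g) (1:ℝ)) ∈ restrictTotalDegree (Fin f) ℝ (f * e) := by
    intro g
    rw [mem_restrictTotalDegree]
    refine le_trans (totalDegree_monomial_le _ _) ?_
    rw [Finsupp.sum_fintype _ _ (fun _ => rfl)]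
    have : ∀ i, m g i ≤ e := fun i => Nat.lt_succ_iff.1 (g i).2
    calc ∑ i, m g i ≤ ∑ i : Fin f, e := Finset.sum_le_sum (fun i _ => this i)
      _ = f * e := by simp
  have hli : LinearIndependent ℝ (fun g : Fin f → Fin (e+1) =>
      (⟨monomial (m g) 1, hdeg g⟩ : restrictTotalDegree (Fin f) ℝ (f * e))) := by
    apply LinearIndependent.of_comp (restrictTotalDegree (Fin f) ℝ (f*e)).subtype
    have := (basisMonomials (Fin f) ℝ).linearIndependent.comp m hm
    simpa [Function.comp_def] using this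
  have h := hli.fintype_card_le_finrank
  simpa using h

/-- Evaluation at a point as a linear functional on the polynomials of degree `≤ d`. -/
noncomputable def evlF (f d : ℕ) (p : Fin f → ℝ) : restrictTotalDegree (Fin f) ℝ d →ₗ[ℝ] ℝ :=
  (MvPolynomial.aeval p : MvPolynomial (Fin f) ℝ →ₐ[ℝ] ℝ).toLinearMap.comp
    (restrictTotalDegree (Fin f) ℝ d).subtype

theorem evlF_apply (d : ℕ) (p : Fin f → ℝ) (g : restrictTotalDegree (Fin f) ℝ d) :
    evlF f d p g = eval p (g : MvPolynomial (Fin f) ℝ) := by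
  simp [evlF, MvPolynomial.aeval_eq_eval]

theorem two_pow_lt' (hf : 0 < f) (j : ℕ) : 2 ^ j < (2 * 2 ^ (j / f) + 1) ^ f := by
  have h1 : j ≤ f * (j / f) + (f - 1) := by
    have h2 := Nat.div_add_mod j f
    have h3 := Nat.mod_lt j hf
    omega
  calc 2 ^ j ≤ 2 ^ (f * (j/f) + (f - 1)) := Nat.pow_le_pow_right (by norm_num) h1
    _ ≤ 2 ^ (f * (j/f) + f) := Nat.pow_le_pow_right (by norm_num) (by omega)
    _ = (2 * 2 ^ (j/f)) ^ f := by
        rw [pow_add, mul_pow, mul_comm f, pow_mul, mul_comm]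
    _ < (2 * 2 ^ (j/f) + 1) ^ f := Nat.pow_lt_pow_left (by omega) (by omega)

theorem sum_deg_le' (hf : 0 < f) (m : ℕ) :
    ∑ j ∈ range (f * m), f * (2 * 2 ^ (j / f)) ≤ 2 * f ^ 2 * 2 ^ m := by
  have h : ∀ m : ℕ, ∑ j ∈ range (f * m), f * (2 * 2 ^ (j / f)) + 2 * f ^ 2 =
      2 * f ^ 2 * 2 ^ m := by
    intro m
    induction m with
    | zero => simp
    | succ m ih =>
      have h1 : ∀ x ∈ range f, f * (2 * 2 ^ ((f * m + x) / f)) = f * (2 * 2 ^ m) := by
        intro x hx
        have : (f * m + x) / f = m := by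
          rw [Nat.mul_add_div hf, Nat.div_eq_of_lt (mem_range.1 hx), add_zero]
        rw [this]
      have h4 : ∑ j ∈ range (f * (m + 1)), f * (2 * 2 ^ (j / f)) =
          ∑ j ∈ range (f * m), f * (2 * 2 ^ (j / f)) + f * (f * (2 * 2 ^ m)) := by
        rw [mul_add, mul_one, sum_range_add, sum_congr rfl h1, sum_const, card_range,
          smul_eq_mul]
      have h5 : 2 * f ^ 2 * 2 ^ (m + 1) = 2 * f ^ 2 * 2 ^ m + f * (f * (2 * 2 ^ m)) := by ring
      rw [h4, h5, ← ih]
      ring
  have := h m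
  omega

open scoped Classical in
/-- **Polynomial partitioning in `R^f`.** -/
theorem poly_partition_dim (hf : 0 < f) {α : Type*} (pts : α → Fin f → ℝ) (F : Finset α)
    (m : ℕ) :
    ∃ g : ℕ → MvPolynomial (Fin f) ℝ, (∀ j, g j ≠ 0) ∧
      (∑ j ∈ range (f * m), (g j).totalDegree ≤ 2 * f ^ 2 * 2 ^ m) ∧
      ∀ s : ℕ → Bool,
        2 ^ (f * m) * #{a ∈ F | ∀ j < f * m, Vale.Agent.P041.SE.Sg (s j) (eval (pts a) (g j))}
          ≤ #F := by
  obtain ⟨g, hg0, hg⟩ := Vale.Agent.P041.SE.partition_general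
    (V := fun j => restrictTotalDegree (Fin f) ℝ (f * (2 * 2 ^ (j/f))))
    (fun j a => evlF f _ (pts a)) F
    (fun j => lt_of_lt_of_le (two_pow_lt' hf j) (finrank_restrict_ge f _))
  refine ⟨fun j => (g j : MvPolynomial (Fin f) ℝ), fun j h => hg0 j (Subtype.ext h), ?_, ?_⟩
  · refine le_trans (sum_le_sum (fun j _ => ?_)) (sum_deg_le' hf m)
    exact (mem_restrictTotalDegree (Fin f) _ _).1 (g j).2
  · intro s
    have h := hg (f * m) s
    simpa only [evlF_apply] using h

end Vale.Agent.P054.W
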