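import Vale.Agent.P054.W.VarietyC

/-! P054, block W, part 8: Warren's bound on a quadric `q = 0`, `deg q ≤ 2`, monic in one
coordinate: at most `10 * 81^(n-1) * D^(n-1)` strict sign patterns. -/

namespace Vale.Agent.P054.W

open MvPolynomial

variable {n : ℕ}

theorem quadric_support (q : MvPolynomial (Fin n) ℝ) (i0 : Fin n) (hq : q.totalDegree ≤ 2)
    (hc : coeff (Finsupp.single i0 2) q = 1) (m : Fin n →₀ ℕ)
    (hm : m ∈ (X i0 ^ 2 - q).support) : m i0 < 2 ∧ ∑ i, m i ≤ 2 := by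
  classical
  have hdeg : (X i0 ^ 2 - q).totalDegree ≤ 2 := by
    refine (totalDegree_sub _ _).trans (max_le ?_ hq)
    rw [totalDegree_X_pow]
  have hsum : ∑ i, m i ≤ 2 := by
    have h := le_totalDegree hm
    rw [Finsupp.sum_fintype _ _ (fun _ => rfl)] at h
    exact h.trans hdeg
  refine ⟨?_, hsum⟩
  by_contra hcon
  push Not at hcon
  have hi : ∀ i, i ≠ i0 → m i = 0 := by
    intro i hi
    have h1 : m i + m i0 ≤ ∑ i, m i := by
      have h2 : ∑ j ∈ ({i, i0} : Finset (Fin n)), m j ≤ ∑ j, m j :=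
        Finset.sum_le_sum_of_subset (Finset.subset_univ _)
      rwa [Finset.sum_pair hi] at h2
    omega
  have h2 : m i0 = 2 := by
    have h3 : m i0 ≤ ∑ i, m i := Finset.single_le_sum (f := fun i => m i)
      (fun _ _ => Nat.zero_le _) (Finset.mem_univ i0)
    omega
  have hm2 : m = Finsupp.single i0 2 := by
    ext i
    by_cases hii : i = i0
    · subst hii; simp [h2]
    · simp [hi i hii, Ne.symm hii]
  rw [mem_support_iff, hm2, coeff_sub, hc, X_pow_eq_monomial, coeff_monomial] at hm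
  simp at hm

theorem card_signs_quadric_le {ι : Type*} [Fintype ι] (q : MvPolynomial (Fin n) ℝ)
    (i0 : Fin n) (hq : q.totalDegree ≤ 2) (hc : coeff (Finsupp.single i0 2) q = 1)
    (f : ι → MvPolynomial (Fin n) ℝ) (D : ℕ) (hD1 : 1 ≤ D)
    (hD : ∑ j, (f j).totalDegree ≤ D) (S : Finset (Fin n → ℝ))
    (hSV : ∀ s ∈ S, eval s q = 0)
    (hS : ∀ s ∈ S, ∀ j, eval s (f j) ≠ 0)
    (hinj : ∀ s ∈ S, ∀ t ∈ S, (∀ j, 0 < eval s (f j) * eval t (f j)) → s = t) :
    S.card ≤ (10 * 81 ^ (n - 1)) * D ^ (n - 1) := by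
  classical
  have hcard : ({i0}ᶜ : Finset (Fin n)).card = n - 1 := by
    rw [Finset.card_compl, Fintype.card_fin, Finset.card_singleton]
  have h := card_signs_variety_le' {i0} 2 2 (by norm_num) (by norm_num)
    (fun _ => X i0 ^ 2 - q) (fun j hj m hm => ?_) f D hD1 hD S (fun s hs j hj => ?_) hS hinj
  · rw [hcard, Finset.card_singleton] at h
    simpa using h
  · obtain rfl := Finset.mem_singleton.mp hj
    obtain ⟨h1, h2⟩ := quadric_support q j hq hc m hm
    refine ⟨fun l hl hlj => absurd (Finset.mem_singleton.mp hl) hlj, h1, ?_⟩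
    exact (Finset.sum_le_sum_of_subset (Finset.subset_univ _)).trans h2
  · obtain rfl := Finset.mem_singleton.mp hj
    rw [map_sub, map_pow, eval_X, hSV s hs, sub_zero]

/-- the number of sign vectors realised on the quadric -/
theorem card_cells_quadric_le {ι : Type*} [Fintype ι] (q : MvPolynomial (Fin n) ℝ)
    (i0 : Fin n) (hq : q.totalDegree ≤ 2) (hc : coeff (Finsupp.single i0 2) q = 1)
    (f : ι → MvPolynomial (Fin n) ℝ) (D : ℕ) (hD1 : 1 ≤ D)
    (hD : ∑ j, (f j).totalDegree ≤ D) (C : Finset (ι → Bool))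
    (hC : ∀ c ∈ C, ∃ y : Fin n → ℝ, eval y q = 0 ∧ ∀ j, eval y (f j) ≠ 0 ∧
      (c j = true ↔ 0 < eval y (f j))) :
    C.card ≤ (10 * 81 ^ (n - 1)) * D ^ (n - 1) := by
  classical
  have hex : ∀ c : C, ∃ y : Fin n → ℝ, eval y q = 0 ∧ ∀ j, eval y (f j) ≠ 0 ∧
      (c.1 j = true ↔ 0 < eval y (f j)) := fun c => hC c.1 c.2
  choose g hg0 hg using hex
  have hkey : ∀ c c' : C, (∀ j, 0 < eval (g c) (f j) * eval (g c') (f j)) → c = c' := by
    intro c c' h
    refine Subtype.ext (funext fun j => ?_)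
    have h1 := hg c j
    have h2 := hg c' j
    rw [Bool.eq_iff_iff, h1.2, h2.2]
    exact pos_iff_pos_of_mul_pos (h j)
  have hginj : Function.Injective g := by
    intro c c' h
    refine hkey c c' fun j => ?_
    rw [h]
    exact mul_self_pos.mpr (hg c' j).1
  have h := card_signs_quadric_le q i0 hq hc f D hD1 hD (Finset.univ.image g) ?_ ?_ ?_
  · rwa [Finset.card_image_of_injective _ hginj, Finset.card_univ, Fintype.card_coe] at h
  · intro s hs
    obtain ⟨c, _, rfl⟩ := Finset.mem_image.mp hs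
    exact hg0 c
  · intro s hs j
    obtain ⟨c, _, rfl⟩ := Finset.mem_image.mp hs
    exact (hg c j).1
  · intro s hs t ht h
    obtain ⟨c, _, rfl⟩ := Finset.mem_image.mp hs
    obtain ⟨c', _, rfl⟩ := Finset.mem_image.mp ht
    rw [hkey c c' h]

end Vale.Agent.P054.W
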