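import Mathlib

/-! P054, block W (Warren's bound), part 1: a finite set of points of R^d on which every
coordinate satisfies `z_i^(K_i) = q_i(z)` with all monomials of `q_i` of weight smaller than
the weight of `x_i^(K_i)` has at most `prod K_i` points. -/

namespace Vale.Agent.P054.W

open MvPolynomial

variable {d : ℕ}

/-- evaluation on a finite set of points -/
noncomputable def ev (Z : Finset (Fin d → ℝ)) : MvPolynomial (Fin d) ℝ →ₗ[ℝ] (Z → ℝ) where
  toFun p z := eval z.1 p
  map_add' := by intro p q; ext z; simp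
  map_smul' := by intro c p; ext z; simp [smul_eval]

@[simp] theorem ev_apply (Z : Finset (Fin d → ℝ)) (p : MvPolynomial (Fin d) ℝ) (z : Z) :
    ev Z p z = eval z.1 p := rfl

/-- separating polynomial -/
noncomputable def sep (a b : Fin d → ℝ) : MvPolynomial (Fin d) ℝ :=
  ∑ i, C (a i - b i) * (X i - C (b i))

theorem eval_sep_self (a b : Fin d → ℝ) : eval b (sep a b) = 0 := by
  simp [sep]

theorem eval_sep_ne (a b : Fin d → ℝ) (h : a ≠ b) : eval a (sep a b) ≠ 0 := by
  have h1 : eval a (sep a b) = ∑ i, (a i - b i) ^ 2 := by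
    simp only [sep, map_sum, map_mul, eval_C, map_sub, eval_X]
    exact Finset.sum_congr rfl fun i _ => by ring
  rw [h1]
  obtain ⟨i, hi⟩ := Function.ne_iff.mp h
  have : 0 < ∑ i, (a i - b i) ^ 2 :=
    Finset.sum_pos' (fun i _ => sq_nonneg _) ⟨i, Finset.mem_univ i, by
      have := sub_ne_zero.mpr hi
      positivity⟩
  exact this.ne'

theorem ev_surjective (Z : Finset (Fin d → ℝ)) : Function.Surjective (ev Z) := by
  classical
  intro f
  refine ⟨∑ z : Z, C (f z / eval z.1 (∏ w ∈ Z.erase z.1, sep z.1 w)) *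
    ∏ w ∈ Z.erase z.1, sep z.1 w, ?_⟩
  ext y
  rw [ev_apply, map_sum, Finset.sum_eq_single y]
  · rw [map_mul, eval_C]
    have : eval y.1 (∏ w ∈ Z.erase y.1, sep y.1 w) ≠ 0 := by
      rw [map_prod]
      refine Finset.prod_ne_zero_iff.mpr fun w hw => eval_sep_ne _ _ ?_
      exact fun h => (Finset.mem_erase.mp hw).1 h.symm
    field_simp
  · intro z _ hzy
    have h0 : ∏ w ∈ Z.erase z.1, eval y.1 (sep z.1 w) = 0 :=
      Finset.prod_eq_zero (i := y.1)
        (Finset.mem_erase.mpr ⟨fun h => hzy (Subtype.ext h.symm), y.2⟩) (eval_sep_self _ _)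
    rw [map_mul, map_prod (eval y.1) (fun w => sep z.1 w) (Z.erase z.1), h0, mul_zero]
  · simp

/-- the weight of a monomial -/
def wt (w : Fin d → ℕ) (m : Fin d →₀ ℕ) : ℕ := ∑ j, w j * m j

theorem wt_add (w : Fin d → ℕ) (m m' : Fin d →₀ ℕ) : wt w (m + m') = wt w m + wt w m' := by
  simp [wt, mul_add, Finset.sum_add_distrib]

theorem wt_single (w : Fin d → ℕ) (i : Fin d) (k : ℕ) : wt w (Finsupp.single i k) = w i * k := by
  classical
  simp [wt, Finsupp.single_apply]

/-- the reduced monomials -/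
noncomputable def redMon (K : Fin d → ℕ) (α : ∀ i, Fin (K i)) : MvPolynomial (Fin d) ℝ :=
  monomial (Finsupp.equivFunOnFinite.symm fun i => (α i : ℕ)) 1

theorem ev_monomial_mem (Z : Finset (Fin d → ℝ)) (K w : Fin d → ℕ)
    (q : Fin d → MvPolynomial (Fin d) ℝ)
    (hq : ∀ i, ∀ m ∈ (q i).support, wt w m < w i * K i)
    (hZ : ∀ z ∈ Z, ∀ i, z i ^ K i = eval z (q i)) :
    ∀ (n : ℕ) (m : Fin d →₀ ℕ), wt w m < n → ∀ c : ℝ,
      ev Z (monomial m c) ∈
        Submodule.span ℝ (Set.range fun α : ∀ i, Fin (K i) => ev Z (redMon K α)) := by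
  intro n
  induction n with
  | zero => intro p hp; exact absurd hp (Nat.not_lt_zero _)
  | succ n ih =>
    intro m hm c
    by_cases hall : ∀ i, m i < K i
    · have : ev Z (monomial m c) = c • ev Z (redMon K fun i => ⟨m i, hall i⟩) := by
        ext z
        simp [redMon, eval_monomial, Finsupp.prod_fintype]
      rw [this]
      exact Submodule.smul_mem _ _ (Submodule.subset_span ⟨_, rfl⟩)
    · push Not at hall
      obtain ⟨i, hi⟩ := hall
      have hle : Finsupp.single i (K i) ≤ m := Finsupp.single_le_iff.mpr hi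
      obtain ⟨m', rfl⟩ : ∃ m', m = m' + Finsupp.single i (K i) :=
        ⟨m - Finsupp.single i (K i), (tsub_add_cancel_of_le hle).symm⟩
      have hev : ev Z (monomial (m' + Finsupp.single i (K i)) c) =
          ev Z (monomial m' c * q i) := by
        ext z
        have h1 : monomial (m' + Finsupp.single i (K i)) c = monomial m' c * (X i) ^ K i := by
          rw [X_pow_eq_monomial, monomial_mul, mul_one]
        rw [ev_apply, ev_apply, h1, map_mul, map_mul, map_pow, eval_X, hZ z.1 z.2 i]
      rw [hev]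
      conv => rw [(q i).as_sum]
      rw [Finset.mul_sum, map_sum]
      refine Submodule.sum_mem _ fun m'' hm'' => ?_
      rw [monomial_mul]
      apply ih
      have h3 := hq i m'' hm''
      rw [wt_add, wt_single] at hm
      rw [wt_add]
      omega

theorem card_le_prod (Z : Finset (Fin d → ℝ)) (K w : Fin d → ℕ)
    (q : Fin d → MvPolynomial (Fin d) ℝ)
    (hq : ∀ i, ∀ m ∈ (q i).support, wt w m < w i * K i)
    (hZ : ∀ z ∈ Z, ∀ i, z i ^ K i = eval z (q i)) :
    Z.card ≤ ∏ i, K i := by
  classical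
  have htop : Submodule.span ℝ (Set.range fun α : ∀ i, Fin (K i) => ev Z (redMon K α)) = ⊤ := by
    rw [eq_top_iff]
    intro f _
    obtain ⟨p, rfl⟩ := ev_surjective Z f
    rw [p.as_sum, map_sum]
    exact Submodule.sum_mem _ fun m _ =>
      ev_monomial_mem Z K w q hq hZ _ m (Nat.lt_succ_self _) _
  have h1 := finrank_range_le_card (R := ℝ) (fun α : ∀ i, Fin (K i) => ev Z (redMon K α))
  have h2 : Set.finrank ℝ (Set.range fun α : ∀ i, Fin (K i) => ev Z (redMon K α)) = Z.card := by
    rw [Set.finrank, htop, finrank_top, Module.finrank_fintype_fun_eq_card, Fintype.card_coe]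
  rw [h2] at h1
  simpa using h1

theorem wt_one_le_totalDegree (p : MvPolynomial (Fin d) ℝ) {m : Fin d →₀ ℕ}
    (hm : m ∈ p.support) : wt (fun _ => 1) m ≤ p.totalDegree := by
  have h := le_totalDegree hm
  rw [Finsupp.sum_fintype _ _ (fun _ => rfl)] at h
  simpa [wt] using h

theorem card_le_pow (Z : Finset (Fin d → ℝ)) (K : ℕ) (q : Fin d → MvPolynomial (Fin d) ℝ)
    (hq : ∀ i, (q i).totalDegree < K) (hZ : ∀ z ∈ Z, ∀ i, z i ^ K = eval z (q i)) :
    Z.card ≤ K ^ d := by
  have h := card_le_prod Z (fun _ => K) (fun _ => 1) q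
    (fun i m hm => by
      have := wt_one_le_totalDegree (q i) hm
      have := hq i
      omega) hZ
  simpa using h

end Vale.Agent.P054.W
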