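import Vale.Agent.P054.W.Warren

/-! P054, block W, part 4: Warren's bound on sets `{w_j^δ = h_j(y, w_j)}`. -/

namespace Vale.Agent.P054.W

open MvPolynomial Filter Topology

variable {d : ℕ}

/-! ### weights -/

/-- all monomials of `p` have weight at most `N` -/
def Wle (w : Fin d → ℕ) (p : MvPolynomial (Fin d) ℝ) (N : ℕ) : Prop :=
  ∀ m ∈ p.support, wt w m ≤ N

theorem Wle.mono {w : Fin d → ℕ} {p : MvPolynomial (Fin d) ℝ} {N M : ℕ} (h : Wle w p N)
    (hNM : N ≤ M) : Wle w p M := fun m hm => (h m hm).trans hNM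

theorem Wle.add {w : Fin d → ℕ} {p q : MvPolynomial (Fin d) ℝ} {N : ℕ} (hp : Wle w p N)
    (hq : Wle w q N) : Wle w (p + q) N := by
  classical
  intro m hm
  rcases Finset.mem_union.mp (support_add hm) with h | h
  · exact hp m h
  · exact hq m h

theorem Wle.neg {w : Fin d → ℕ} {p : MvPolynomial (Fin d) ℝ} {N : ℕ} (hp : Wle w p N) :
    Wle w (-p) N := by
  intro m hm
  rw [support_neg] at hm
  exact hp m hm

theorem Wle.sub {w : Fin d → ℕ} {p q : MvPolynomial (Fin d) ℝ} {N : ℕ} (hp : Wle w p N)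
    (hq : Wle w q N) : Wle w (p - q) N := by
  rw [sub_eq_add_neg]
  exact hp.add hq.neg

theorem Wle.mul {w : Fin d → ℕ} {p q : MvPolynomial (Fin d) ℝ} {N M : ℕ} (hp : Wle w p N)
    (hq : Wle w q M) : Wle w (p * q) (N + M) := by
  classical
  intro m hm
  obtain ⟨a, ha, b, hb, rfl⟩ := Finset.mem_add.mp (support_mul p q hm)
  rw [wt_add]
  exact Nat.add_le_add (hp a ha) (hq b hb)

theorem Wle.C_mul {w : Fin d → ℕ} {p : MvPolynomial (Fin d) ℝ} {N : ℕ} (hp : Wle w p N)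
    (c : ℝ) : Wle w (C c * p) N := by
  intro m hm
  apply hp m
  rw [mem_support_iff] at hm ⊢
  rw [coeff_C_mul] at hm
  exact right_ne_zero_of_mul hm

theorem Wle.zero (w : Fin d → ℕ) (N : ℕ) : Wle w 0 N := by
  intro m hm
  simp at hm

theorem Wle.sum {w : Fin d → ℕ} {ι : Type*} {s : Finset ι} {p : ι → MvPolynomial (Fin d) ℝ}
    {N : ℕ} (h : ∀ i ∈ s, Wle w (p i) N) : Wle w (∑ i ∈ s, p i) N := by
  classical
  induction s using Finset.induction_on with
  | empty => simpa using Wle.zero w N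
  | insert a s ha ih =>
    rw [Finset.sum_insert ha]
    exact (h a (Finset.mem_insert_self _ _)).add
      (ih fun i hi => h i (Finset.mem_insert_of_mem hi))

theorem Wle.pderiv {w : Fin d → ℕ} {p : MvPolynomial (Fin d) ℝ} {N : ℕ} (hp : Wle w p N)
    (i : Fin d) : Wle w (MvPolynomial.pderiv i p) N := by
  intro m hm
  have h := hp _ (mem_support_pderiv hm)
  rw [wt_add] at h
  exact (Nat.le_add_right _ _).trans h

theorem Wle.X_pow (w : Fin d → ℕ) (i : Fin d) (n : ℕ) :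
    Wle w ((X i : MvPolynomial (Fin d) ℝ) ^ n) (w i * n) := by
  classical
  intro m hm
  rw [X_pow_eq_monomial] at hm
  have := Finset.mem_singleton.mp (support_monomial_subset hm)
  rw [this, wt_single]

/-! ### reduction modulo the equations -/

theorem exists_reduced_monomial (W : Finset (Fin d)) (δ κ : ℕ)
    (h : Fin d → MvPolynomial (Fin d) ℝ)
    (hh : ∀ j ∈ W, ∀ m ∈ (h j).support,
      (∀ l ∈ W, l ≠ j → m l = 0) ∧ m j < δ ∧ ∑ i ∈ Wᶜ, m i ≤ κ) :
    ∀ (N : ℕ) (m : Fin d →₀ ℕ), ∑ j ∈ W, m j < N → ∀ c : ℝ,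
      ∃ p : MvPolynomial (Fin d) ℝ,
        (∀ z : Fin d → ℝ, (∀ j ∈ W, z j ^ δ = eval z (h j)) →
          eval z p = eval z (monomial m c)) ∧
        ∀ m' ∈ p.support, (∀ j ∈ W, m' j < δ) ∧
          ∑ i ∈ Wᶜ, m' i + κ * ∑ j ∈ W, m' j ≤ ∑ i ∈ Wᶜ, m i + κ * ∑ j ∈ W, m j := by
  classical
  intro N
  induction N with
  | zero => intro m hm; exact absurd hm (Nat.not_lt_zero _)
  | succ N ih =>
    intro m hm c
    by_cases hall : ∀ j ∈ W, m j < δ
    · refine ⟨monomial m c, fun z _ => rfl, fun m' hm' => ?_⟩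
      have := Finset.mem_singleton.mp (support_monomial_subset hm')
      subst this
      exact ⟨hall, le_rfl⟩
    · push Not at hall
      obtain ⟨j, hj, hmj⟩ := hall
      have hle : Finsupp.single j δ ≤ m := Finsupp.single_le_iff.mpr hmj
      obtain ⟨m', rfl⟩ : ∃ m', m = m' + Finsupp.single j δ :=
        ⟨m - Finsupp.single j δ, (tsub_add_cancel_of_le hle).symm⟩
      have hsW : ∀ a b : Fin d →₀ ℕ, ∑ l ∈ W, (a + b) l = ∑ l ∈ W, a l + ∑ l ∈ W, b l := by
        intro a b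
        simp [Finset.sum_add_distrib]
      have hsY : ∀ a b : Fin d →₀ ℕ, ∑ l ∈ Wᶜ, (a + b) l = ∑ l ∈ Wᶜ, a l + ∑ l ∈ Wᶜ, b l := by
        intro a b
        simp [Finset.sum_add_distrib]
      have hs1 : ∑ l ∈ W, (Finsupp.single j δ) l = δ := by
        rw [Finset.sum_eq_single j]
        · simp
        · intro l _ hl
          simp [hl.symm]
        · intro hj'
          exact absurd hj hj'
      have hs2 : ∑ l ∈ Wᶜ, (Finsupp.single j δ) l = 0 := by
        refine Finset.sum_eq_zero fun l hl => ?_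
        have : j ≠ l := fun hjl => by
          rw [← hjl] at hl
          exact Finset.mem_compl.mp hl hj
        simp [this]
      have hhj : ∀ m'' ∈ (h j).support, ∑ l ∈ W, m'' l < δ ∧ ∑ i ∈ Wᶜ, m'' i ≤ κ := by
        intro m'' hm''
        obtain ⟨h1, h2, h3⟩ := hh j hj m'' hm''
        refine ⟨?_, h3⟩
        rw [Finset.sum_eq_single j (fun l hl hlj => h1 l hl hlj) (fun hj' => absurd hj hj')]
        exact h2
      have hex : ∀ m'' : (h j).support, ∃ p : MvPolynomial (Fin d) ℝ,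
          (∀ z : Fin d → ℝ, (∀ j ∈ W, z j ^ δ = eval z (h j)) →
            eval z p = eval z (monomial (m' + m''.1) (c * coeff m''.1 (h j)))) ∧
          ∀ m₀ ∈ p.support, (∀ j ∈ W, m₀ j < δ) ∧
            ∑ i ∈ Wᶜ, m₀ i + κ * ∑ j ∈ W, m₀ j ≤
              ∑ i ∈ Wᶜ, (m' + m''.1) i + κ * ∑ j ∈ W, (m' + m''.1) j := by
        intro m''
        apply ih
        have h1 := (hhj m''.1 m''.2).1
        rw [hsW, hs1] at hm
        rw [hsW]
        omega
      choose g hg1 hg2 using hex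
      refine ⟨∑ m'' : (h j).support, g m'', fun z hz => ?_, fun m₀ hm₀ => ?_⟩
      · rw [map_sum]
        have h1 : eval z (monomial (m' + Finsupp.single j δ) c) =
            eval z (monomial m' c * h j) := by
          have h2 : monomial (m' + Finsupp.single j δ) c = monomial m' c * (X j) ^ δ := by
            rw [X_pow_eq_monomial, monomial_mul, mul_one]
          rw [h2, map_mul, map_mul, map_pow, eval_X, hz j hj]
        rw [h1]
        conv_rhs => rw [(h j).as_sum]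
        rw [Finset.mul_sum, map_sum, ← Finset.sum_coe_sort (h j).support]
        refine Finset.sum_congr rfl fun m'' _ => ?_
        rw [hg1 m'' z hz, monomial_mul]
      · have hmem : ∃ m'' : (h j).support, m₀ ∈ (g m'').support := by
          by_contra hcon
          push Not at hcon
          rw [mem_support_iff, coeff_sum] at hm₀
          exact hm₀ (Finset.sum_eq_zero fun m'' _ => notMem_support_iff.mp (hcon m''))
        obtain ⟨m'', hm''⟩ := hmem
        obtain ⟨h1, h2⟩ := hg2 m'' m₀ hm''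
        refine ⟨h1, h2.trans ?_⟩
        obtain ⟨h3, h4⟩ := hhj m''.1 m''.2
        rw [hsY, hsW, hsY, hsW, hs1, hs2]
        have h5 : κ * ∑ l ∈ W, m''.1 l + κ ≤ κ * δ := by
          calc κ * ∑ l ∈ W, m''.1 l + κ = κ * (∑ l ∈ W, m''.1 l + 1) := by ring
            _ ≤ κ * δ := Nat.mul_le_mul_left κ h3
        have h6 : κ * (∑ l ∈ W, m' l + ∑ l ∈ W, m''.1 l) =
            κ * ∑ l ∈ W, m' l + κ * ∑ l ∈ W, m''.1 l := by ring
        have h7 : κ * (∑ l ∈ W, m' l + δ) = κ * ∑ l ∈ W, m' l + κ * δ := by ring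
        rw [h6, h7]
        omega

theorem exists_reduced (W : Finset (Fin d)) (δ κ : ℕ) (hκ : 1 ≤ κ)
    (h : Fin d → MvPolynomial (Fin d) ℝ)
    (hh : ∀ j ∈ W, ∀ m ∈ (h j).support,
      (∀ l ∈ W, l ≠ j → m l = 0) ∧ m j < δ ∧ ∑ i ∈ Wᶜ, m i ≤ κ)
    (G : MvPolynomial (Fin d) ℝ) (n : ℕ) (hG : G.totalDegree ≤ n) :
    ∃ p : MvPolynomial (Fin d) ℝ,
      (∀ z : Fin d → ℝ, (∀ j ∈ W, z j ^ δ = eval z (h j)) → eval z p = eval z G) ∧
      ∀ m' ∈ p.support, (∀ j ∈ W, m' j < δ) ∧ ∑ i ∈ Wᶜ, m' i ≤ κ * n := by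
  classical
  have hex : ∀ m : G.support, ∃ p : MvPolynomial (Fin d) ℝ,
      (∀ z : Fin d → ℝ, (∀ j ∈ W, z j ^ δ = eval z (h j)) →
        eval z p = eval z (monomial m.1 (coeff m.1 G))) ∧
      ∀ m' ∈ p.support, (∀ j ∈ W, m' j < δ) ∧
        ∑ i ∈ Wᶜ, m' i + κ * ∑ j ∈ W, m' j ≤ ∑ i ∈ Wᶜ, m.1 i + κ * ∑ j ∈ W, m.1 j :=
    fun m => exists_reduced_monomial W δ κ h hh _ m.1 (Nat.lt_succ_self _) _
  choose g hg1 hg2 using hex
  refine ⟨∑ m : G.support, g m, fun z hz => ?_, fun m₀ hm₀ => ?_⟩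
  · conv_rhs => rw [G.as_sum]
    rw [map_sum, map_sum, ← Finset.sum_coe_sort G.support]
    exact Finset.sum_congr rfl fun m _ => hg1 m z hz
  · have hmem : ∃ m : G.support, m₀ ∈ (g m).support := by
      by_contra hcon
      push Not at hcon
      rw [mem_support_iff, coeff_sum] at hm₀
      exact hm₀ (Finset.sum_eq_zero fun m'' _ => notMem_support_iff.mp (hcon m''))
    obtain ⟨m, hm⟩ := hmem
    obtain ⟨h1, h2⟩ := hg2 m m₀ hm
    refine ⟨h1, ?_⟩
    have h3 := le_totalDegree m.2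
    rw [Finsupp.sum_fintype _ _ (fun _ => rfl)] at h3
    have h4 : ∑ i ∈ W, m.1 i + ∑ i ∈ Wᶜ, m.1 i = ∑ i, m.1 i := Finset.sum_add_sum_compl W _
    have h5 : ∑ i ∈ Wᶜ, m.1 i ≤ κ * ∑ i ∈ Wᶜ, m.1 i := Nat.le_mul_of_pos_left _ hκ
    have h6 : κ * ∑ i ∈ Wᶜ, m.1 i + κ * ∑ j ∈ W, m.1 j = κ * ∑ i, m.1 i := by
      rw [← h4]; ring
    have h7 : κ * ∑ i, m.1 i ≤ κ * n := Nat.mul_le_mul_left κ (h3.trans hG)
    omega

end Vale.Agent.P054.W
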