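import Vale.Agent.P054.W.Variety

/-! P054, block W, part 5: critical points for a general penalised polynomial; growth. -/

namespace Vale.Agent.P054.W

open MvPolynomial Filter Topology

variable {d : ℕ}

theorem exists_crit' {ι : Type*} [Finite ι] (f : ι → MvPolynomial (Fin d) ℝ)
    (Φ : MvPolynomial (Fin d) ℝ) (c0 : ℝ)
    (hpos : ∀ x, c0 < eval x Φ → ∀ j, eval x (f j) ≠ 0) (R : ℝ)
    (hR : ∀ x : Fin d → ℝ, R < ‖x‖ → eval x Φ ≤ c0) (s : Fin d → ℝ)
    (hs : c0 < eval s Φ) :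
    ∃ x, (∀ j, 0 < eval x (f j) * eval s (f j)) ∧ ∀ i, eval x (pderiv i Φ) = 0 := by
  have hcont : ∀ p : MvPolynomial (Fin d) ℝ, Continuous fun x : Fin d → ℝ => eval x p :=
    fun p => MvPolynomial.continuous_eval p
  let A : Set (Fin d → ℝ) := {x | ‖x‖ ≤ R} ∩ {x | ∀ j, 0 ≤ eval x (f j) * eval s (f j)}
  have hAc : IsCompact A := by
    have h1 : IsCompact {x : Fin d → ℝ | ‖x‖ ≤ R} := by
      have : {x : Fin d → ℝ | ‖x‖ ≤ R} = Metric.closedBall 0 R := by
        ext x; simp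
      rw [this]
      exact isCompact_closedBall _ _
    refine h1.inter_right ?_
    have : {x : Fin d → ℝ | ∀ j, 0 ≤ eval x (f j) * eval s (f j)} =
        ⋂ j, {x | 0 ≤ eval x (f j) * eval s (f j)} := by
      ext x; simp
    rw [this]
    exact isClosed_iInter fun j =>
      isClosed_le continuous_const ((hcont (f j)).mul continuous_const)
  have hsA : s ∈ A := by
    refine ⟨?_, fun j => mul_self_nonneg _⟩
    by_contra hcon
    have := hR s (not_le.mp hcon)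
    linarith
  obtain ⟨x, hxA, hxmax⟩ := hAc.exists_isMaxOn ⟨s, hsA⟩ (hcont Φ).continuousOn
  have hx0 : c0 < eval x Φ := lt_of_lt_of_le hs (hxmax hsA)
  have hxU : ∀ j, 0 < eval x (f j) * eval s (f j) := fun j =>
    lt_of_le_of_ne (hxA.2 j) (mul_ne_zero (hpos x hx0 j) (hpos s hs j)).symm
  refine ⟨x, hxU, fun i => crit_of_isLocalMax Φ x ?_ i⟩
  have hU : ∀ᶠ y in 𝓝 x, ∀ j, 0 < eval y (f j) * eval s (f j) := by
    rw [eventually_all]
    intro j
    exact ((hcont (f j)).mul continuous_const).continuousAt.eventually (lt_mem_nhds (hxU j))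
  filter_upwards [hU] with y hy
  by_cases hyR : ‖y‖ ≤ R
  · exact hxmax ⟨hyR, fun j => (hy j).le⟩
  · exact (hR y (not_le.mp hyR)).trans hx0.le

theorem card_le_crit' {ι : Type*} [Finite ι] (f : ι → MvPolynomial (Fin d) ℝ)
    (Φ : MvPolynomial (Fin d) ℝ) (c0 : ℝ)
    (hpos : ∀ x, c0 < eval x Φ → ∀ j, eval x (f j) ≠ 0) (R : ℝ)
    (hR : ∀ x : Fin d → ℝ, R < ‖x‖ → eval x Φ ≤ c0)
    (S : Finset (Fin d → ℝ)) (hS : ∀ s ∈ S, c0 < eval s Φ)
    (hinj : ∀ s ∈ S, ∀ t ∈ S, (∀ j, 0 < eval s (f j) * eval t (f j)) → s = t) (N : ℕ)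
    (hN : ∀ Z : Finset (Fin d → ℝ), (∀ z ∈ Z, ∀ i, eval z (pderiv i Φ) = 0) → Z.card ≤ N) :
    S.card ≤ N := by
  classical
  have hex : ∀ s : S, ∃ x, (∀ j, 0 < eval x (f j) * eval s.1 (f j)) ∧
      ∀ i, eval x (pderiv i Φ) = 0 := fun s =>
    exists_crit' f Φ c0 hpos R hR s.1 (hS s.1 s.2)
  choose g hg1 hg2 using hex
  have hginj : Function.Injective g := by
    intro s t hst
    refine Subtype.ext (hinj s.1 s.2 t.1 t.2 fun j => ?_)
    have h1 := hg1 s j
    have h2 := hg1 t j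
    rw [hst] at h1
    have h3 := mul_pos h1 h2
    by_contra hcon
    push Not at hcon
    have : eval (g t) (f j) * eval s.1 (f j) * (eval (g t) (f j) * eval t.1 (f j)) =
        eval (g t) (f j) ^ 2 * (eval s.1 (f j) * eval t.1 (f j)) := by ring
    rw [this] at h3
    have h4 := sq_nonneg (eval (g t) (f j))
    nlinarith
  have h5 := hN (Finset.univ.image g) (by
    intro z hz i
    obtain ⟨s, _, rfl⟩ := Finset.mem_image.mp hz
    exact hg2 s i)
  rwa [Finset.card_image_of_injective _ hginj, Finset.card_univ, Fintype.card_coe] at h5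

/-- one-variable growth -/
theorem growth (A e : ℝ) (hA : 0 ≤ A) (he : 0 < e) (n m : ℕ) (hnm : n < m) (M : ℝ) :
    ∃ R : ℝ, 1 ≤ R ∧ ∀ t : ℝ, R ≤ t → A * (1 + t) ^ n - e * t ^ m ≤ -M := by
  refine ⟨1 + (A * 2 ^ n + |M|) / e, ?_, fun t ht => ?_⟩
  · have : 0 ≤ (A * 2 ^ n + |M|) / e := by positivity
    linarith
  · have h0 : 0 ≤ (A * 2 ^ n + |M|) / e := by positivity
    have ht1 : 1 ≤ t := by linarith
    have h1 : A * 2 ^ n + |M| ≤ e * t := by
      have : (A * 2 ^ n + |M|) / e ≤ t := by linarith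
      rw [div_le_iff₀ he] at this
      linarith
    have h2 : (1 + t) ^ n ≤ 2 ^ n * t ^ n := by
      rw [← mul_pow]
      exact pow_le_pow_left₀ (by linarith) (by linarith) _
    have h3 : t ^ n * t ≤ t ^ m := by
      rw [← pow_succ]
      exact pow_le_pow_right₀ ht1 hnm
    have h4 : 1 ≤ t ^ n := one_le_pow₀ ht1
    have h5 : A * (1 + t) ^ n ≤ A * (2 ^ n * t ^ n) := mul_le_mul_of_nonneg_left h2 hA
    have h6 : e * (t ^ n * t) ≤ e * t ^ m := mul_le_mul_of_nonneg_left h3 he.le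
    have h7 : (A * 2 ^ n + |M|) * t ^ n ≤ (e * t) * t ^ n :=
      mul_le_mul_of_nonneg_right h1 (by linarith)
    have h8 : |M| ≤ |M| * t ^ n := le_mul_of_one_le_right (abs_nonneg _) h4
    have h9 := le_abs_self M
    nlinarith

theorem growth_bdd (A e : ℝ) (hA : 0 ≤ A) (he : 0 < e) (n m : ℕ) (hnm : n < m) :
    ∃ M : ℝ, 0 ≤ M ∧ ∀ t : ℝ, 0 ≤ t → A * (1 + t) ^ n - e * t ^ m ≤ M := by
  obtain ⟨R, hR1, hR⟩ := growth A e hA he n m hnm 0
  refine ⟨A * (1 + R) ^ n, by positivity, fun t ht => ?_⟩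
  rcases le_total R t with h | h
  · have h1 := hR t h
    have h2 : 0 ≤ A * (1 + R) ^ n := by positivity
    linarith
  · have h1 : (1 + t) ^ n ≤ (1 + R) ^ n := pow_le_pow_left₀ (by linarith) (by linarith) _
    have h2 : A * (1 + t) ^ n ≤ A * (1 + R) ^ n := mul_le_mul_of_nonneg_left h1 hA
    have h3 : 0 ≤ e * t ^ m := by positivity
    linarith

theorem norm_pow_le_sum' (x : Fin d → ℝ) (n : ℕ) (hn : 1 ≤ n) :
    ‖x‖ ^ (2 * n) ≤ ∑ i, x i ^ (2 * n) := by
  have hev : Even (2 * n) := ⟨n, by ring⟩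
  rcases (norm_nonneg x).eq_or_lt with h0 | h0
  · rw [← h0, zero_pow (by omega)]
    exact Finset.sum_nonneg fun i _ => hev.pow_nonneg _
  · obtain ⟨D, rfl⟩ : ∃ D, n = D + 1 := ⟨n - 1, by omega⟩
    have := norm_pow_le_sum x D h0
    simpa [mul_add] using this

/-- restriction of a vector to a set of coordinates -/
def restr (W : Finset (Fin d)) (x : Fin d → ℝ) : Fin d → ℝ := fun i => if i ∈ W then x i else 0

theorem norm_le_restr (W : Finset (Fin d)) (x : Fin d → ℝ) :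
    ‖x‖ ≤ max ‖restr W x‖ ‖restr Wᶜ x‖ := by
  rw [pi_norm_le_iff_of_nonneg (le_max_of_le_left (norm_nonneg _))]
  intro i
  by_cases hi : i ∈ W
  · refine le_max_of_le_left ?_
    have := norm_le_pi_norm (restr W x) i
    simpa [restr, hi] using this
  · refine le_max_of_le_right ?_
    have := norm_le_pi_norm (restr Wᶜ x) i
    simpa [restr, hi] using this

theorem sum_restr (W : Finset (Fin d)) (x : Fin d → ℝ) (n : ℕ) (hn : 1 ≤ n) :
    ∑ i, restr W x i ^ (2 * n) = ∑ i ∈ W, x i ^ (2 * n) := by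
  classical
  have h1 : ∀ i, restr W x i ^ (2 * n) = if i ∈ W then x i ^ (2 * n) else 0 := by
    intro i
    by_cases hi : i ∈ W
    · simp [restr, hi]
    · simp only [restr, hi, if_false]
      exact zero_pow (by omega)
  rw [Finset.sum_congr rfl fun i _ => h1 i, Finset.sum_ite_mem, Finset.univ_inter]

/-- bound of a polynomial whose monomials have `W`-degree `≤ b` and `Wᶜ`-degree `≤ a` -/
theorem abs_eval_le_two (W : Finset (Fin d)) (p : MvPolynomial (Fin d) ℝ) (a b : ℕ)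
    (hp : ∀ m ∈ p.support, ∑ i ∈ W, m i ≤ b ∧ ∑ i ∈ Wᶜ, m i ≤ a) (x : Fin d → ℝ) :
    |eval x p| ≤ (∑ m ∈ p.support, |coeff m p|) *
      ((1 + ‖restr Wᶜ x‖) ^ (2 * a) + (1 + ‖restr W x‖) ^ (2 * b)) := by
  classical
  set T := 1 + ‖restr Wᶜ x‖ with hT
  set U := 1 + ‖restr W x‖ with hU
  have hT1 : 1 ≤ T := by have := norm_nonneg (restr Wᶜ x); linarith
  have hU1 : 1 ≤ U := by have := norm_nonneg (restr W x); linarith
  rw [eval_eq', Finset.sum_mul]
  refine (Finset.abs_sum_le_sum_abs _ _).trans (Finset.sum_le_sum fun m hm => ?_)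
  rw [abs_mul]
  refine mul_le_mul_of_nonneg_left ?_ (abs_nonneg _)
  rw [Finset.abs_prod]
  have h1 : ∏ i, |x i ^ m i| = (∏ i ∈ W, |x i ^ m i|) * ∏ i ∈ Wᶜ, |x i ^ m i| :=
    (Finset.prod_mul_prod_compl W _).symm
  rw [h1]
  have h2 : ∏ i ∈ W, |x i ^ m i| ≤ U ^ b := by
    calc ∏ i ∈ W, |x i ^ m i| ≤ ∏ i ∈ W, U ^ m i := by
          refine Finset.prod_le_prod (fun i _ => abs_nonneg _) fun i hi => ?_
          rw [abs_pow]
          refine pow_le_pow_left₀ (abs_nonneg _) ?_ _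
          have := norm_le_pi_norm (restr W x) i
          simp only [restr, hi, if_true, Real.norm_eq_abs] at this
          rw [hU]
          have h3 : |x i| ≤ ‖restr W x‖ := this
          linarith
      _ = U ^ (∑ i ∈ W, m i) := by rw [Finset.prod_pow_eq_pow_sum]
      _ ≤ U ^ b := pow_le_pow_right₀ hU1 (hp m hm).1
  have h3 : ∏ i ∈ Wᶜ, |x i ^ m i| ≤ T ^ a := by
    calc ∏ i ∈ Wᶜ, |x i ^ m i| ≤ ∏ i ∈ Wᶜ, T ^ m i := by
          refine Finset.prod_le_prod (fun i _ => abs_nonneg _) fun i hi => ?_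
          rw [abs_pow]
          refine pow_le_pow_left₀ (abs_nonneg _) ?_ _
          have := norm_le_pi_norm (restr Wᶜ x) i
          simp only [restr, hi, if_true, Real.norm_eq_abs] at this
          rw [hT]
          have h3 : |x i| ≤ ‖restr Wᶜ x‖ := this
          linarith
      _ = T ^ (∑ i ∈ Wᶜ, m i) := by rw [Finset.prod_pow_eq_pow_sum]
      _ ≤ T ^ a := pow_le_pow_right₀ hT1 (hp m hm).2
  have h4 : (∏ i ∈ W, |x i ^ m i|) * ∏ i ∈ Wᶜ, |x i ^ m i| ≤ U ^ b * T ^ a :=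
    mul_le_mul h2 h3 (Finset.prod_nonneg fun i _ => abs_nonneg _) (by positivity)
  refine h4.trans ?_
  have h5 : T ^ (2 * a) = (T ^ a) ^ 2 := by rw [mul_comm, pow_mul]
  have h6 : U ^ (2 * b) = (U ^ b) ^ 2 := by rw [mul_comm, pow_mul]
  rw [h5, h6]
  nlinarith [sq_nonneg (T ^ a - U ^ b), sq_nonneg (T ^ a), sq_nonneg (U ^ b)]

end Vale.Agent.P054.W
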