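import Vale.Agent.P054.W.VarietyB

/-! P054, block W, part 6: Warren's bound on `V = {z : z_j^δ = h_j(z) (j ∈ W)}`, where the
monomials of `h_j` contain no variable of `W` except `z_j` with exponent `< δ`, and have degree
at most `κ` in the other variables:  at most `C * D^(number of variables outside W)` strict sign
patterns of polynomials with degree sum `D`. -/

namespace Vale.Agent.P054.W

open MvPolynomial Filter Topology

variable {d : ℕ}

/-- the penalty polynomial -/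
noncomputable def pen (e : ℝ) (dg : Fin d → ℕ) : MvPolynomial (Fin d) ℝ :=
  ∑ i, C e * X i ^ dg i

theorem eval_pen (e : ℝ) (dg : Fin d → ℕ) (x : Fin d → ℝ) :
    eval x (pen e dg) = e * ∑ i, x i ^ dg i := by
  rw [pen, map_sum, Finset.mul_sum]
  exact Finset.sum_congr rfl fun i _ => by simp

theorem eval_pderiv_pen (e : ℝ) (dg : Fin d → ℕ) (z : Fin d → ℝ) (i : Fin d) :
    eval z (pderiv i (pen e dg)) = e * dg i * z i ^ (dg i - 1) := by
  classical
  rw [pen, map_sum, map_sum, Finset.sum_eq_single i]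
  · rw [pderiv_C_mul, pderiv_pow, pderiv_X_self]
    simp
    ring
  · intro j _ hj
    rw [pderiv_C_mul, pderiv_pow, pderiv_X_of_ne hj]
    simp
  · simp

theorem crit_count (dg wf : Fin d → ℕ) (N : ℕ) (Q : MvPolynomial (Fin d) ℝ)
    (hQ : Wle wf Q N) (hb : ∀ i, N < wf i * (dg i - 1)) (hdg1 : ∀ i, 1 ≤ dg i)
    (e : ℝ) (he : 0 < e) (Z : Finset (Fin d → ℝ))
    (hZ : ∀ z ∈ Z, ∀ i, eval z (pderiv i (Q - pen e dg)) = 0) :
    Z.card ≤ ∏ i, (dg i - 1) := by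
  refine card_le_prod Z (fun i => dg i - 1) wf (fun i => C (1 / (e * dg i)) * pderiv i Q)
    (fun i m hm => lt_of_le_of_lt (((hQ.pderiv i).C_mul _) m hm) (hb i)) (fun z hz i => ?_)
  have h1 := hZ z hz i
  rw [map_sub, map_sub, eval_pderiv_pen] at h1
  rw [map_mul, eval_C]
  have h2 : (dg i : ℝ) ≠ 0 := by
    have h0 : 0 < dg i := hdg1 i
    positivity
  have h3 : e * (dg i : ℝ) ≠ 0 := mul_ne_zero he.ne' h2
  rw [one_div, inv_mul_eq_div, eq_div_iff h3]
  linarith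

theorem coercive (W : Finset (Fin d)) (Gt : MvPolynomial (Fin d) ℝ) (a b n1 n2 : ℕ)
    (hGtm : ∀ m ∈ Gt.support, ∑ i ∈ W, m i ≤ b ∧ ∑ i ∈ Wᶜ, m i ≤ a)
    (hn1 : 2 * a < 2 * n1) (hn2 : 2 * b < 2 * n2) (e : ℝ) (he0 : 0 < e) :
    ∃ R : ℝ, ∀ x : Fin d → ℝ, R < ‖x‖ →
      eval x Gt - eval x (pen e fun i => if i ∈ W then 2 * n2 else 2 * n1) ≤ 0 := by
  classical
  set A : ℝ := ∑ m ∈ Gt.support, |coeff m Gt| with hA
  have hA0 : 0 ≤ A := Finset.sum_nonneg fun _ _ => abs_nonneg _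
  obtain ⟨M1, hM1, hM1'⟩ := growth_bdd A e hA0 he0 _ _ hn1
  obtain ⟨M2, hM2, hM2'⟩ := growth_bdd A e hA0 he0 _ _ hn2
  obtain ⟨R1, hR1, hR1'⟩ := growth A e hA0 he0 _ _ hn1 M2
  obtain ⟨R2, hR2, hR2'⟩ := growth A e hA0 he0 _ _ hn2 M1
  refine ⟨max R1 R2, fun x hx => ?_⟩
  have h1 := (le_abs_self _).trans (abs_eval_le_two W Gt _ _ hGtm x)
  have h2 : e * ‖restr Wᶜ x‖ ^ (2 * n1) + e * ‖restr W x‖ ^ (2 * n2) ≤
      eval x (pen e fun i => if i ∈ W then 2 * n2 else 2 * n1) := by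
    rw [eval_pen, ← mul_add]
    refine mul_le_mul_of_nonneg_left ?_ he0.le
    have h3 := norm_pow_le_sum' (restr Wᶜ x) n1 (by omega)
    have h4 := norm_pow_le_sum' (restr W x) n2 (by omega)
    rw [sum_restr _ _ _ (by omega)] at h3
    rw [sum_restr _ _ _ (by omega)] at h4
    have h5 : ∑ i, x i ^ (if i ∈ W then 2 * n2 else 2 * n1) =
        ∑ i ∈ W, x i ^ (2 * n2) + ∑ i ∈ Wᶜ, x i ^ (2 * n1) := by
      rw [← Finset.sum_add_sum_compl W]
      congr 1
      · exact Finset.sum_congr rfl fun i hi => by simp [hi]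
      · exact Finset.sum_congr rfl fun i hi => by
          have := Finset.mem_compl.mp hi
          simp [this]
    rw [h5]
    linarith
  have h6 := hM1' ‖restr Wᶜ x‖ (norm_nonneg _)
  have h7 := hM2' ‖restr W x‖ (norm_nonneg _)
  rcases lt_max_iff.mp (lt_of_lt_of_le hx (norm_le_restr W x)) with h8 | h8
  · have h9 := hR2' ‖restr W x‖ ((le_max_right _ _).trans h8.le)
    linarith
  · have h9 := hR1' ‖restr Wᶜ x‖ ((le_max_left _ _).trans h8.le)
    linarith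

/-- the sum of squares of the equations -/
noncomputable def eqs (W : Finset (Fin d)) (δ : ℕ) (h : Fin d → MvPolynomial (Fin d) ℝ) :
    MvPolynomial (Fin d) ℝ := ∑ j ∈ W, (X j ^ δ - h j) * (X j ^ δ - h j)

theorem eval_eqs (W : Finset (Fin d)) (δ : ℕ) (h : Fin d → MvPolynomial (Fin d) ℝ)
    (x : Fin d → ℝ) : eval x (eqs W δ h) = ∑ j ∈ W, (x j ^ δ - eval x (h j)) ^ 2 := by
  rw [eqs, map_sum]
  exact Finset.sum_congr rfl fun j _ => by simp [sq]

theorem eval_eqs_nonneg (W : Finset (Fin d)) (δ : ℕ) (h : Fin d → MvPolynomial (Fin d) ℝ)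
    (x : Fin d → ℝ) : 0 ≤ eval x (eqs W δ h) := by
  rw [eval_eqs]; exact Finset.sum_nonneg fun j _ => sq_nonneg _

theorem of_eval_eqs_eq_zero (W : Finset (Fin d)) (δ : ℕ) (h : Fin d → MvPolynomial (Fin d) ℝ)
    (x : Fin d → ℝ) (hx : eval x (eqs W δ h) = 0) : ∀ j ∈ W, x j ^ δ = eval x (h j) := by
  intro j hj
  rw [eval_eqs, Finset.sum_eq_zero_iff_of_nonneg fun j _ => sq_nonneg _] at hx
  have h1 := pow_eq_zero_iff (two_ne_zero) |>.mp (hx j hj)
  linarith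

/-- abstract form: reduction + penalty -/
theorem card_signs_of_reduced {ι : Type*} [Fintype ι] (W : Finset (Fin d)) (δ : ℕ)
    (h : Fin d → MvPolynomial (Fin d) ℝ) (f : ι → MvPolynomial (Fin d) ℝ)
    (Gt : MvPolynomial (Fin d) ℝ)
    (hGt1 : ∀ z : Fin d → ℝ, (∀ j ∈ W, z j ^ δ = eval z (h j)) →
      eval z Gt = ∏ j, eval z (f j) ^ 2)
    (a b n1 n2 N : ℕ)
    (hGtm : ∀ m ∈ Gt.support, ∑ i ∈ W, m i ≤ b ∧ ∑ i ∈ Wᶜ, m i ≤ a)
    (hn1 : 2 * a < 2 * n1) (hn2 : 2 * b < 2 * n2) (wf : Fin d → ℕ)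
    (hW1 : Wle wf Gt N) (hW2 : Wle wf (eqs W δ h) N)
    (hb : ∀ i, N < wf i * ((if i ∈ W then 2 * n2 else 2 * n1) - 1))
    (S : Finset (Fin d → ℝ)) (hSV : ∀ s ∈ S, ∀ j ∈ W, s j ^ δ = eval s (h j))
    (hS : ∀ s ∈ S, ∀ j, eval s (f j) ≠ 0)
    (hinj : ∀ s ∈ S, ∀ t ∈ S, (∀ j, 0 < eval s (f j) * eval t (f j)) → s = t) :
    S.card ≤ ∏ i, ((if i ∈ W then 2 * n2 else 2 * n1) - 1) := by
  classical
  set G : MvPolynomial (Fin d) ℝ := ∏ j, f j ^ 2 with hG
  have hGx : ∀ x, eval x G = ∏ j, eval x (f j) ^ 2 := by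
    intro x
    rw [hG, map_prod]
    exact Finset.prod_congr rfl fun j _ => map_pow _ _ _
  have hGpos : ∀ s ∈ S, 0 < eval s G := by
    intro s hs
    rw [hGx]
    exact Finset.prod_pos fun j _ => by
      have := hS s hs j
      positivity
  set dg : Fin d → ℕ := fun i => if i ∈ W then 2 * n2 else 2 * n1 with hdg
  have hdge : ∀ i, Even (dg i) := by
    intro i
    rw [hdg]
    by_cases hi : i ∈ W
    · simp only [hi, if_true]; exact even_two_mul _
    · simp only [hi, if_false]; exact even_two_mul _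
  obtain ⟨e, he0, he⟩ : ∃ e : ℝ, 0 < e ∧
      ∀ s ∈ S, e * (1 + ∑ i, s i ^ dg i) < eval s G := by
    have h1 : ∀ᶠ e : ℝ in 𝓝[>] 0, ∀ s ∈ S, e * (1 + ∑ i, s i ^ dg i) < eval s G := by
      rw [Finset.eventually_all]
      intro s hs
      have h2 : Tendsto (fun e : ℝ => e * (1 + ∑ i, s i ^ dg i)) (𝓝[>] 0) (𝓝 0) := by
        have : Continuous fun e : ℝ => e * (1 + ∑ i, s i ^ dg i) := by fun_prop
        have h3 := this.tendsto 0
        rw [zero_mul] at h3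
        exact h3.mono_left nhdsWithin_le_nhds
      exact h2.eventually (gt_mem_nhds (hGpos s hs))
    obtain ⟨e, he1, he2⟩ := (h1.and self_mem_nhdsWithin).exists
    exact ⟨e, he2, he1⟩
  have hcont : ∀ p : MvPolynomial (Fin d) ℝ, Continuous fun x : Fin d → ℝ => eval x p :=
    fun p => MvPolynomial.continuous_eval p
  obtain ⟨R, hcoer⟩ := coercive W Gt a b n1 n2 hGtm hn1 hn2 e he0
  have hball : IsCompact {x : Fin d → ℝ | ‖x‖ ≤ R} := by
    have : {x : Fin d → ℝ | ‖x‖ ≤ R} = Metric.closedBall 0 R := by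
      ext x; simp
    rw [this]
    exact isCompact_closedBall _ _
  obtain ⟨M3, hM3⟩ : ∃ M3 : ℝ, ∀ x : Fin d → ℝ, ‖x‖ ≤ R → eval x Gt ≤ M3 := by
    obtain ⟨M3, hM3⟩ := hball.bddAbove_image (hcont Gt).continuousOn
    exact ⟨M3, fun x hx => hM3 ⟨x, hx, rfl⟩⟩
  obtain ⟨τ, hτ0, hτ⟩ : ∃ τ : ℝ, 0 < τ ∧ ∀ x : Fin d → ℝ, ‖x‖ ≤ R → eval x G = 0 →
      e ≤ eval x Gt → τ ≤ eval x (eqs W δ h) := by
    let B : Set (Fin d → ℝ) := {x | ‖x‖ ≤ R} ∩ ({x | eval x G = 0} ∩ {x | e ≤ eval x Gt})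
    have hB : IsCompact B := hball.inter_right
      ((isClosed_eq (hcont G) continuous_const).inter (isClosed_le continuous_const (hcont Gt)))
    rcases B.eq_empty_or_nonempty with h0 | h0
    · refine ⟨1, one_pos, fun x h1 h2 h3 => ?_⟩
      have : x ∈ B := ⟨h1, h2, h3⟩
      rw [h0] at this
      exact absurd this (Set.notMem_empty x)
    · obtain ⟨x0, hx0, hmin⟩ := hB.exists_isMinOn h0 (hcont (eqs W δ h)).continuousOn
      refine ⟨eval x0 (eqs W δ h), ?_, fun x h1 h2 h3 => hmin ⟨h1, h2, h3⟩⟩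
      refine lt_of_le_of_ne (eval_eqs_nonneg W δ h x0) fun h1 => ?_
      have h2 := hGt1 x0 (of_eval_eqs_eq_zero W δ h x0 h1.symm)
      have h3 : eval x0 G = 0 := hx0.2.1
      have h4 : e ≤ eval x0 Gt := hx0.2.2
      rw [hGx] at h3
      linarith
  set Λ : ℝ := (|M3| + 1) / τ with hΛ
  have hΛ0 : 0 ≤ Λ := by positivity
  set Φ : MvPolynomial (Fin d) ℝ := Gt - C Λ * eqs W δ h - pen e dg with hΦ
  have hΦx : ∀ x, eval x Φ = eval x Gt - Λ * eval x (eqs W δ h) - eval x (pen e dg) := by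
    intro x
    rw [hΦ, map_sub, map_sub, map_mul, eval_C]
  have hPenn : ∀ x, 0 ≤ eval x (pen e dg) := by
    intro x
    rw [eval_pen]
    exact mul_nonneg he0.le (Finset.sum_nonneg fun i _ => (hdge i).pow_nonneg _)
  have hΦle : ∀ x, eval x Φ ≤ eval x Gt - eval x (pen e dg) := fun x => by
    rw [hΦx]
    have := mul_nonneg hΛ0 (eval_eqs_nonneg W δ h x)
    linarith
  have hRΦ : ∀ x : Fin d → ℝ, R < ‖x‖ → eval x Φ ≤ e := fun x hx =>
    ((hΦle x).trans (hcoer x hx)).trans he0.le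
  refine card_le_crit' f Φ e (fun x hx j hj => ?_) R hRΦ S (fun s hs => ?_) hinj _
    (fun Z hZ => ?_)
  · have h1 : ‖x‖ ≤ R := by
      by_contra hcon
      have := hRΦ x (not_le.mp hcon)
      linarith
    have h2 : e ≤ eval x Gt := by
      have := hΦle x
      have := hPenn x
      linarith
    have h0 : eval x G = 0 := by
      rw [hGx]
      exact Finset.prod_eq_zero (Finset.mem_univ j) (by rw [hj]; norm_num)
    have h3 := hτ x h1 h0 h2
    have h4 : |M3| + 1 ≤ Λ * eval x (eqs W δ h) := by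
      have : Λ * τ = |M3| + 1 := by rw [hΛ]; field_simp
      rw [← this]
      exact mul_le_mul_of_nonneg_left h3 hΛ0
    have h5 := hM3 x h1
    have h6 := le_abs_self M3
    have h7 := hPenn x
    rw [hΦx] at hx
    linarith
  · have hV := hSV s hs
    have h1 : eval s (eqs W δ h) = 0 := by
      rw [eval_eqs]
      exact Finset.sum_eq_zero fun j hj => by rw [hV j hj]; ring
    rw [hΦx, h1, hGt1 s hV, eval_pen, ← hGx]
    have := he s hs
    linarith
  · refine crit_count dg wf N _ (hW1.sub (hW2.C_mul Λ)) hb (fun i => ?_) e he0 Z hZ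
    by_cases hi : i ∈ W
    · simp only [hdg, hi, if_true]; omega
    · simp only [hdg, hi, if_false]; omega

theorem card_signs_variety_le {ι : Type*} [Fintype ι] (W : Finset (Fin d)) (δ κ : ℕ)
    (hδ : 1 ≤ δ) (hκ : 1 ≤ κ) (h : Fin d → MvPolynomial (Fin d) ℝ)
    (hh : ∀ j ∈ W, ∀ m ∈ (h j).support,
      (∀ l ∈ W, l ≠ j → m l = 0) ∧ m j < δ ∧ ∑ i ∈ Wᶜ, m i ≤ κ)
    (f : ι → MvPolynomial (Fin d) ℝ) (D : ℕ) (hD1 : 1 ≤ D)
    (hD : ∑ j, (f j).totalDegree ≤ D) (S : Finset (Fin d → ℝ))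
    (hSV : ∀ s ∈ S, ∀ j ∈ W, s j ^ δ = eval s (h j))
    (hS : ∀ s ∈ S, ∀ j, eval s (f j) ≠ 0)
    (hinj : ∀ s ∈ S, ∀ t ∈ S, (∀ j, 0 < eval s (f j) * eval t (f j)) → s = t) :
    S.card ≤ (2 * (W.card * δ + δ + 1) - 1) ^ W.card *
      (2 * (W.card * δ + δ + 1) * (3 * κ * D + 1) + 1) ^ Wᶜ.card := by
  classical
  set r := W.card with hr
  set q := r * δ + δ + 1 with hq
  set Ω := 3 * κ * D + 1 with hΩ
  have hκD : 1 ≤ κ * D := Nat.mul_pos hκ hD1
  have hκΩ : κ ≤ Ω := by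
    have : κ ≤ κ * D := Nat.le_mul_of_pos_right _ hD1
    rw [hΩ, mul_assoc]; omega
  have h2κ : 2 * (κ * D) < Ω := by rw [hΩ, mul_assoc]; omega
  have hGdeg : (∏ j, f j ^ 2).totalDegree ≤ 2 * D := by
    refine (totalDegree_finsetProd _ _).trans ?_
    calc ∑ j, (f j ^ 2).totalDegree ≤ ∑ j, 2 * (f j).totalDegree :=
          Finset.sum_le_sum fun j _ => totalDegree_pow _ _
      _ = 2 * ∑ j, (f j).totalDegree := by rw [Finset.mul_sum]
      _ ≤ 2 * D := Nat.mul_le_mul_left 2 hD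
  obtain ⟨Gt, hGt1, hGt2⟩ := exists_reduced W δ κ hκ h hh _ (2 * D) hGdeg
  have hGtm : ∀ m ∈ Gt.support, ∑ i ∈ W, m i ≤ r * δ ∧ ∑ i ∈ Wᶜ, m i ≤ κ * (2 * D) := by
    intro m hm
    obtain ⟨h1, h2⟩ := hGt2 m hm
    refine ⟨?_, h2⟩
    calc ∑ i ∈ W, m i ≤ ∑ _i ∈ W, δ := Finset.sum_le_sum fun i hi => (h1 i hi).le
      _ = r * δ := by simp [hr]
  have h3κ : κ * (2 * D) = 2 * (κ * D) := by ring
  have hn1 : 2 * (κ * (2 * D)) < 2 * (q * Ω + 1) := by
    have h1 : 1 * Ω ≤ q * Ω := Nat.mul_le_mul_right _ (by omega)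
    rw [h3κ]
    omega
  have hn2 : 2 * (r * δ) < 2 * q := by omega
  set wf : Fin d → ℕ := fun i => if i ∈ W then Ω else 1 with hwf
  have hwtle : ∀ m : Fin d →₀ ℕ, wt wf m = Ω * ∑ i ∈ W, m i + ∑ i ∈ Wᶜ, m i := by
    intro m
    rw [wt, ← Finset.sum_add_sum_compl W, Finset.mul_sum]
    congr 1
    · exact Finset.sum_congr rfl fun i hi => by simp [hwf, hi]
    · exact Finset.sum_congr rfl fun i hi => by
        have := Finset.mem_compl.mp hi
        simp [hwf, this]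
  set N := Ω * (r * δ) + Ω * (2 * δ) + 2 * (κ * D) with hN
  have hW1 : Wle wf Gt N := by
    intro m hm
    obtain ⟨h1, h2⟩ := hGtm m hm
    rw [hwtle]
    have h3 := Nat.mul_le_mul_left Ω h1
    omega
  have hW2 : Wle wf (eqs W δ h) N := by
    refine Wle.sum fun j hj => ?_
    have h1 : Wle wf (X j ^ δ - h j) (Ω * δ) := by
      refine Wle.sub ?_ ?_
      · have := Wle.X_pow wf j δ
        simpa [hwf, hj] using this
      · intro m hm
        obtain ⟨h2, h3, h4⟩ := hh j hj m hm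
        rw [hwtle, Finset.sum_eq_single j (fun l hl hlj => h2 l hl hlj)
          (fun hj' => absurd hj hj')]
        have h5 : Ω * m j + Ω ≤ Ω * δ := by
          calc Ω * m j + Ω = Ω * (m j + 1) := by ring
            _ ≤ Ω * δ := Nat.mul_le_mul_left Ω h3
        omega
    refine (h1.mul h1).mono ?_
    have : Ω * (2 * δ) = Ω * δ + Ω * δ := by ring
    omega
  have hbound : ∀ i, N < wf i * ((if i ∈ W then 2 * q else 2 * (q * Ω + 1)) - 1) := by
    intro i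
    have h1 : Ω * (2 * q - 1) = Ω * (r * δ) + Ω * (2 * δ) + (Ω * (r * δ) + Ω) := by
      have : 2 * q - 1 = r * δ + 2 * δ + (r * δ + 1) := by omega
      rw [this]; ring
    by_cases hi : i ∈ W
    · simp only [hwf, hi, if_true]
      rw [h1]
      omega
    · simp only [hwf, hi, if_false, one_mul]
      have h2 : Ω * (2 * q - 1) + Ω = 2 * (q * Ω) := by
        have : 2 * q - 1 + 1 = 2 * q := by omega
        calc Ω * (2 * q - 1) + Ω = Ω * (2 * q - 1 + 1) := by ring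
          _ = 2 * (q * Ω) := by rw [this]; ring
      omega
  have hmain := card_signs_of_reduced W δ h f Gt
    (fun z hz => by
      rw [hGt1 z hz, map_prod]
      exact Finset.prod_congr rfl fun j _ => map_pow _ _ _)
    _ _ _ _ N hGtm hn1 hn2 wf hW1 hW2 hbound S hSV hS hinj
  refine hmain.trans (le_of_eq ?_)
  rw [← Finset.prod_mul_prod_compl W]
  congr 1
  · rw [Finset.prod_congr rfl (g := fun _ => 2 * q - 1) fun i hi => by simp [hi]]
    rw [Finset.prod_const]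
  · rw [Finset.prod_congr rfl (g := fun _ => 2 * q * Ω + 1) fun i hi => by
      have := Finset.mem_compl.mp hi
      simp only [this, if_false]
      rw [mul_assoc]
      omega]
    rw [Finset.prod_const]

/-- the same with an explicit constant times `D^(dim)` -/
theorem card_signs_variety_le' {ι : Type*} [Fintype ι] (W : Finset (Fin d)) (δ κ : ℕ)
    (hδ : 1 ≤ δ) (hκ : 1 ≤ κ) (h : Fin d → MvPolynomial (Fin d) ℝ)
    (hh : ∀ j ∈ W, ∀ m ∈ (h j).support,
      (∀ l ∈ W, l ≠ j → m l = 0) ∧ m j < δ ∧ ∑ i ∈ Wᶜ, m i ≤ κ)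
    (f : ι → MvPolynomial (Fin d) ℝ) (D : ℕ) (hD1 : 1 ≤ D)
    (hD : ∑ j, (f j).totalDegree ≤ D) (S : Finset (Fin d → ℝ))
    (hSV : ∀ s ∈ S, ∀ j ∈ W, s j ^ δ = eval s (h j))
    (hS : ∀ s ∈ S, ∀ j, eval s (f j) ≠ 0)
    (hinj : ∀ s ∈ S, ∀ t ∈ S, (∀ j, 0 < eval s (f j) * eval t (f j)) → s = t) :
    S.card ≤ ((2 * (W.card * δ + δ + 1)) ^ W.card *
      (8 * (W.card * δ + δ + 1) * κ + 1) ^ Wᶜ.card) * D ^ Wᶜ.card := by
  refine (card_signs_variety_le W δ κ hδ hκ h hh f D hD1 hD S hSV hS hinj).trans ?_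
  have h0 : ∀ a b c : ℕ, a * b ^ Wᶜ.card * c ^ Wᶜ.card = a * (b * c) ^ Wᶜ.card := by
    intro a b c
    rw [mul_pow, mul_assoc]
  rw [h0]
  refine Nat.mul_le_mul (Nat.pow_le_pow_left (Nat.sub_le _ _) _) (Nat.pow_le_pow_left ?_ _)
  have h1 : 1 ≤ κ * D := Nat.mul_pos hκ hD1
  have h2 : 3 * κ * D + 1 ≤ 4 * (κ * D) := by rw [mul_assoc]; omega
  calc 2 * (W.card * δ + δ + 1) * (3 * κ * D + 1) + 1
      ≤ 2 * (W.card * δ + δ + 1) * (4 * (κ * D)) + D :=
        Nat.add_le_add (Nat.mul_le_mul_left _ h2) hD1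
    _ = (8 * (W.card * δ + δ + 1) * κ + 1) * D := by ring

end Vale.Agent.P054.W
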