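import Vale.Agent.P054.W.CritCount

/-! P054, block W (Warren's bound), part 2: polynomials of total degree sum `D` have at most
`(2D+1)^d` strict sign patterns on R^d. -/

namespace Vale.Agent.P054.W

open MvPolynomial Filter Topology

variable {d : ℕ}

theorem mem_support_pderiv {i : Fin d} {p : MvPolynomial (Fin d) ℝ} {m : Fin d →₀ ℕ}
    (hm : m ∈ (pderiv i p).support) : m + Finsupp.single i 1 ∈ p.support := by
  rw [mem_support_iff, coeff_pderiv] at hm
  rw [mem_support_iff]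
  intro h
  rw [h] at hm
  simp at hm

theorem totalDegree_pderiv_le (i : Fin d) (p : MvPolynomial (Fin d) ℝ) :
    (pderiv i p).totalDegree ≤ p.totalDegree := by
  rw [totalDegree]
  refine Finset.sup_le fun m hm => ?_
  have h := le_totalDegree (mem_support_pderiv hm)
  rw [Finsupp.sum_add_index' (fun _ => rfl) (fun _ _ _ => rfl)] at h
  exact (Nat.le_add_right _ _).trans h

theorem hasDerivAt_eval (p : MvPolynomial (Fin d) ℝ) (x v : Fin d → ℝ) :
    HasDerivAt (fun t : ℝ => eval (x + t • v) p) (∑ i, v i * eval x (pderiv i p)) 0 := by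
  classical
  induction p using MvPolynomial.induction_on with
  | C a => simpa using hasDerivAt_const (0 : ℝ) a
  | add p q hp hq =>
    have h := hp.add hq
    refine (h.congr_deriv ?_).congr_of_eventuallyEq ?_
    · simp [mul_add, Finset.sum_add_distrib]
    · exact Eventually.of_forall fun t => by simp
  | mul_X p n hp =>
    have h1 : HasDerivAt (fun t : ℝ => x n + t * v n) (v n) 0 := by
      simpa using ((hasDerivAt_id (0 : ℝ)).mul_const (v n)).const_add (x n)
    have h := hp.mul h1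
    refine (h.congr_deriv ?_).congr_of_eventuallyEq ?_
    · have h2 : ∀ i, v i * eval x (pderiv i (p * X n)) =
          v i * eval x (pderiv i p) * x n + (if n = i then v i * eval x p else 0) := by
        intro i
        rw [pderiv_mul, map_add, map_mul, map_mul, eval_X]
        by_cases hi : n = i
        · subst hi
          rw [if_pos rfl, pderiv_X_self, map_one]
          ring
        · rw [if_neg hi, pderiv_X_of_ne hi, map_zero]
          ring
      rw [Finset.sum_congr rfl fun i _ => h2 i, Finset.sum_add_distrib, ← Finset.sum_mul]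
      simp [mul_comm]
    · exact Eventually.of_forall fun t => by simp

theorem crit_of_isLocalMax (p : MvPolynomial (Fin d) ℝ) (x : Fin d → ℝ)
    (h : IsLocalMax (fun y => eval y p) x) (i : Fin d) : eval x (pderiv i p) = 0 := by
  classical
  have h1 := hasDerivAt_eval p x (Pi.single i 1)
  have h2 : IsLocalMax (fun t : ℝ => eval (x + t • (Pi.single i 1 : Fin d → ℝ)) p) 0 := by
    have hc : Tendsto (fun t : ℝ => x + t • (Pi.single i 1 : Fin d → ℝ)) (𝓝 0) (𝓝 x) := by
      have : Continuous (fun t : ℝ => x + t • (Pi.single i 1 : Fin d → ℝ)) := by fun_prop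
      simpa using this.tendsto 0
    have h3 := hc.eventually h
    filter_upwards [h3] with t ht
    simpa using ht
  have h4 := h2.hasDerivAt_eq_zero h1
  rw [Finset.sum_eq_single i] at h4
  · simpa using h4
  · intro j _ hj
    simp [Pi.single_eq_of_ne hj]
  · simp

theorem exists_crit {ι : Type*} [Fintype ι] (f : ι → MvPolynomial (Fin d) ℝ)
    (Ψ : MvPolynomial (Fin d) ℝ) (hΨ : ∀ x, 0 ≤ eval x Ψ) (R : ℝ)
    (hR : ∀ x : Fin d → ℝ, R < ‖x‖ → eval x ((∏ j, f j ^ 2) - Ψ) ≤ 0) (s : Fin d → ℝ)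
    (hs : 0 < eval s ((∏ j, f j ^ 2) - Ψ)) :
    ∃ x, (∀ j, 0 < eval x (f j) * eval s (f j)) ∧
      ∀ i, eval x (pderiv i ((∏ j, f j ^ 2) - Ψ)) = 0 := by
  set Φ := (∏ j, f j ^ 2) - Ψ with hΦ
  have hpos : ∀ x, 0 < eval x Φ → ∀ j, eval x (f j) ≠ 0 := by
    intro x hx j hj
    rw [hΦ, map_sub, map_prod] at hx
    have h0 : ∏ j, eval x (f j ^ 2) = 0 :=
      Finset.prod_eq_zero (Finset.mem_univ j) (by rw [map_pow, hj]; norm_num)
    rw [h0] at hx
    have := hΨ x
    linarith
  have hcont : ∀ p : MvPolynomial (Fin d) ℝ, Continuous fun x : Fin d → ℝ => eval x p :=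
    fun p => MvPolynomial.continuous_eval p
  let A : Set (Fin d → ℝ) := {x | ‖x‖ ≤ R} ∩ {x | ∀ j, 0 ≤ eval x (f j) * eval s (f j)}
  have hAc : IsCompact A := by
    have h1 : IsCompact {x : Fin d → ℝ | ‖x‖ ≤ R} := by
      have : {x : Fin d → ℝ | ‖x‖ ≤ R} = Metric.closedBall 0 R := by
        ext x; simp
      rw [this]
      exact isCompact_closedBall _ _
    refine h1.inter_right ?_
    have : {x : Fin d → ℝ | ∀ j, 0 ≤ eval x (f j) * eval s (f j)} =
        ⋂ j, {x | 0 ≤ eval x (f j) * eval s (f j)} := by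
      ext x; simp
    rw [this]
    exact isClosed_iInter fun j =>
      isClosed_le continuous_const ((hcont (f j)).mul continuous_const)
  have hsA : s ∈ A := by
    refine ⟨?_, fun j => mul_self_nonneg _⟩
    by_contra hcon
    have := hR s (not_le.mp hcon)
    linarith
  obtain ⟨x, hxA, hxmax⟩ := hAc.exists_isMaxOn ⟨s, hsA⟩ (hcont Φ).continuousOn
  have hx0 : 0 < eval x Φ := lt_of_lt_of_le hs (hxmax hsA)
  have hxU : ∀ j, 0 < eval x (f j) * eval s (f j) := fun j =>
    lt_of_le_of_ne (hxA.2 j) (mul_ne_zero (hpos x hx0 j) (hpos s hs j)).symm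
  refine ⟨x, hxU, fun i => crit_of_isLocalMax Φ x ?_ i⟩
  have hU : ∀ᶠ y in 𝓝 x, ∀ j, 0 < eval y (f j) * eval s (f j) := by
    rw [eventually_all]
    intro j
    exact ((hcont (f j)).mul continuous_const).continuousAt.eventually (lt_mem_nhds (hxU j))
  filter_upwards [hU] with y hy
  by_cases hyR : ‖y‖ ≤ R
  · exact hxmax ⟨hyR, fun j => (hy j).le⟩
  · exact (hR y (not_le.mp hyR)).trans hx0.le

/-- the number of realised strict sign patterns is bounded by the number of critical points -/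
theorem card_le_crit {ι : Type*} [Fintype ι] (f : ι → MvPolynomial (Fin d) ℝ)
    (Ψ : MvPolynomial (Fin d) ℝ) (hΨ : ∀ x, 0 ≤ eval x Ψ) (R : ℝ)
    (hR : ∀ x : Fin d → ℝ, R < ‖x‖ → eval x ((∏ j, f j ^ 2) - Ψ) ≤ 0)
    (S : Finset (Fin d → ℝ))
    (hS : ∀ s ∈ S, 0 < eval s ((∏ j, f j ^ 2) - Ψ))
    (hinj : ∀ s ∈ S, ∀ t ∈ S, (∀ j, 0 < eval s (f j) * eval t (f j)) → s = t) (N : ℕ)
    (hN : ∀ Z : Finset (Fin d → ℝ),
      (∀ z ∈ Z, ∀ i, eval z (pderiv i ((∏ j, f j ^ 2) - Ψ)) = 0) → Z.card ≤ N) :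
    S.card ≤ N := by
  classical
  have hex : ∀ s : S, ∃ x, (∀ j, 0 < eval x (f j) * eval s.1 (f j)) ∧
      ∀ i, eval x (pderiv i ((∏ j, f j ^ 2) - Ψ)) = 0 := fun s =>
    exists_crit f Ψ hΨ R hR s.1 (hS s.1 s.2)
  choose g hg1 hg2 using hex
  have hginj : Function.Injective g := by
    intro s t hst
    refine Subtype.ext (hinj s.1 s.2 t.1 t.2 fun j => ?_)
    have h1 := hg1 s j
    have h2 := hg1 t j
    rw [hst] at h1
    have h3 := mul_pos h1 h2
    have h4 : 0 < eval (g t) (f j) ^ 2 := by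
      rcases eq_or_ne (eval (g t) (f j)) 0 with h0 | h0
      · rw [h0] at h1; simp at h1
      · positivity
    by_contra hcon
    push Not at hcon
    have : eval (g t) (f j) * eval s.1 (f j) * (eval (g t) (f j) * eval t.1 (f j)) =
        eval (g t) (f j) ^ 2 * (eval s.1 (f j) * eval t.1 (f j)) := by ring
    rw [this] at h3
    nlinarith
  have h5 := hN (Finset.univ.image g) (by
    intro z hz i
    obtain ⟨s, _, rfl⟩ := Finset.mem_image.mp hz
    exact hg2 s i)
  rwa [Finset.card_image_of_injective _ hginj, Finset.card_univ, Fintype.card_coe] at h5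

theorem abs_eval_le (p : MvPolynomial (Fin d) ℝ) (n : ℕ) (hn : p.totalDegree ≤ n)
    (x : Fin d → ℝ) :
    |eval x p| ≤ (∑ m ∈ p.support, |coeff m p|) * (1 + ‖x‖) ^ n := by
  have h1 : eval x p = ∑ m ∈ p.support, coeff m p * ∏ i, x i ^ m i := by
    rw [eval_eq']
  rw [h1, Finset.sum_mul]
  refine (Finset.abs_sum_le_sum_abs _ _).trans (Finset.sum_le_sum fun m hm => ?_)
  rw [abs_mul]
  refine mul_le_mul_of_nonneg_left ?_ (abs_nonneg _)
  rw [Finset.abs_prod]
  calc ∏ i, |x i ^ m i| ≤ ∏ i, (1 + ‖x‖) ^ m i := by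
        refine Finset.prod_le_prod (fun i _ => abs_nonneg _) fun i _ => ?_
        rw [abs_pow]
        refine pow_le_pow_left₀ (abs_nonneg _) ?_ _
        have : |x i| ≤ ‖x‖ := norm_le_pi_norm x i
        linarith
    _ = (1 + ‖x‖) ^ (∑ i, m i) := by rw [Finset.prod_pow_eq_pow_sum]
    _ ≤ (1 + ‖x‖) ^ n := by
        refine pow_le_pow_right₀ (by have := norm_nonneg x; linarith) ?_
        have h2 := le_totalDegree hm
        rw [Finsupp.sum_fintype _ _ (fun _ => rfl)] at h2
        exact h2.trans hn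

theorem norm_pow_le_sum (x : Fin d → ℝ) (D : ℕ) (hx : 0 < ‖x‖) :
    ‖x‖ ^ (2 * D + 2) ≤ ∑ i, x i ^ (2 * D + 2) := by
  by_contra hcon
  push Not at hcon
  have hev : Even (2 * D + 2) := ⟨D + 1, by ring⟩
  have h1 : ‖x‖ < ‖x‖ := by
    rw [pi_norm_lt_iff hx]
    intro i
    have h2 : x i ^ (2 * D + 2) ≤ ∑ i, x i ^ (2 * D + 2) :=
      Finset.single_le_sum (f := fun i => x i ^ (2 * D + 2)) (fun j _ => hev.pow_nonneg _)
        (Finset.mem_univ i)
    have h3 : |x i| ^ (2 * D + 2) < ‖x‖ ^ (2 * D + 2) := by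
      rw [hev.pow_abs]
      exact lt_of_le_of_lt h2 hcon
    exact lt_of_pow_lt_pow_left₀ _ hx.le h3
  exact lt_irrefl _ h1

/-- WARREN: strict sign patterns of polynomials with degree sum at most `D` on `R^d`. -/
theorem card_signs_le {ι : Type*} [Fintype ι] (f : ι → MvPolynomial (Fin d) ℝ) (D : ℕ)
    (hD : ∑ j, (f j).totalDegree ≤ D) (S : Finset (Fin d → ℝ))
    (hS : ∀ s ∈ S, ∀ j, eval s (f j) ≠ 0)
    (hinj : ∀ s ∈ S, ∀ t ∈ S, (∀ j, 0 < eval s (f j) * eval t (f j)) → s = t) :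
    S.card ≤ (2 * D + 1) ^ d := by
  classical
  set G : MvPolynomial (Fin d) ℝ := ∏ j, f j ^ 2 with hG
  have hGdeg : G.totalDegree ≤ 2 * D := by
    refine (totalDegree_finsetProd _ _).trans ?_
    calc ∑ j, (f j ^ 2).totalDegree ≤ ∑ j, 2 * (f j).totalDegree :=
          Finset.sum_le_sum fun j _ => totalDegree_pow _ _
      _ = 2 * ∑ j, (f j).totalDegree := by rw [Finset.mul_sum]
      _ ≤ 2 * D := Nat.mul_le_mul_left 2 hD
  have hGpos : ∀ s ∈ S, 0 < eval s G := by
    intro s hs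
    rw [hG, map_prod]
    exact Finset.prod_pos fun j _ => by
      rw [map_pow]
      have := hS s hs j
      positivity
  have hev : Even (2 * D + 2) := ⟨D + 1, by ring⟩
  obtain ⟨e, he0, he⟩ : ∃ e : ℝ, 0 < e ∧
      ∀ s ∈ S, e * ∑ i, s i ^ (2 * D + 2) < eval s G := by
    have h1 : ∀ᶠ e : ℝ in 𝓝[>] 0, ∀ s ∈ S, e * ∑ i, s i ^ (2 * D + 2) < eval s G := by
      rw [Finset.eventually_all]
      intro s hs
      have h2 : Tendsto (fun e : ℝ => e * ∑ i, s i ^ (2 * D + 2)) (𝓝[>] 0) (𝓝 0) := by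
        have : Continuous fun e : ℝ => e * ∑ i, s i ^ (2 * D + 2) := by fun_prop
        have h3 := this.tendsto 0
        rw [zero_mul] at h3
        exact h3.mono_left nhdsWithin_le_nhds
      exact h2.eventually (gt_mem_nhds (hGpos s hs))
    obtain ⟨e, he1, he2⟩ := (h1.and self_mem_nhdsWithin).exists
    exact ⟨e, he2, he1⟩
  set Ψ : MvPolynomial (Fin d) ℝ := ∑ i, C e * X i ^ (2 * D + 2) with hΨdef
  have hΨe : ∀ x, eval x Ψ = e * ∑ i, x i ^ (2 * D + 2) := by
    intro x
    rw [hΨdef, map_sum, Finset.mul_sum]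
    exact Finset.sum_congr rfl fun i _ => by simp
  set A : ℝ := ∑ m ∈ G.support, |coeff m G| with hA
  have hA0 : 0 ≤ A := Finset.sum_nonneg fun _ _ => abs_nonneg _
  refine card_le_crit f Ψ (fun x => ?_) (1 + A * 4 ^ D / e) (fun x hx => ?_) S (fun s hs => ?_)
    hinj _ (fun Z hZ => ?_)
  · rw [hΨe]
    exact mul_nonneg he0.le (Finset.sum_nonneg fun i _ => hev.pow_nonneg _)
  · rw [map_sub, hΨe]
    have hx1 : 1 < ‖x‖ := by
      have : 0 ≤ A * 4 ^ D / e := by positivity
      linarith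
    have hx2 : A * 4 ^ D ≤ e * ‖x‖ := by
      have : A * 4 ^ D / e ≤ ‖x‖ := by linarith
      rw [div_le_iff₀ he0] at this
      linarith
    have h1 : eval x G ≤ A * (1 + ‖x‖) ^ (2 * D) :=
      (le_abs_self _).trans (abs_eval_le G _ hGdeg x)
    have h2 : (1 + ‖x‖) ^ (2 * D) ≤ 4 ^ D * ‖x‖ ^ (2 * D) := by
      have : (4 : ℝ) ^ D * ‖x‖ ^ (2 * D) = (2 * ‖x‖) ^ (2 * D) := by
        rw [mul_pow, pow_mul 2 2 D]; norm_num
      rw [this]
      exact pow_le_pow_left₀ (by linarith) (by linarith) _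
    have h3 : ‖x‖ ^ (2 * D + 2) ≤ ∑ i, x i ^ (2 * D + 2) :=
      norm_pow_le_sum x D (by linarith)
    have h4 : eval x G ≤ e * ‖x‖ ^ (2 * D + 2) := by
      calc eval x G ≤ A * (4 ^ D * ‖x‖ ^ (2 * D)) := h1.trans (mul_le_mul_of_nonneg_left h2 hA0)
        _ = (A * 4 ^ D) * ‖x‖ ^ (2 * D) := by ring
        _ ≤ (e * ‖x‖) * ‖x‖ ^ (2 * D) := mul_le_mul_of_nonneg_right hx2 (by positivity)
        _ = e * ‖x‖ ^ (2 * D + 1) := by ring
        _ ≤ e * ‖x‖ ^ (2 * D + 2) :=
            mul_le_mul_of_nonneg_left (pow_le_pow_right₀ hx1.le (by omega)) he0.le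
    have h5 := mul_le_mul_of_nonneg_left h3 he0.le
    linarith
  · rw [map_sub, hΨe]
    have := he s hs
    linarith
  · refine card_le_pow Z (2 * D + 1) (fun i => C (1 / (e * (2 * D + 2))) * pderiv i G)
      (fun i => ?_) (fun z hz i => ?_)
    · refine lt_of_le_of_lt (totalDegree_mul _ _) ?_
      rw [totalDegree_C, zero_add]
      have := totalDegree_pderiv_le i G
      omega
    · have h1 := hZ z hz i
      have h2 : eval z (pderiv i Ψ) = e * (2 * D + 2) * z i ^ (2 * D + 1) := by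
        rw [hΨdef, map_sum, map_sum, Finset.sum_eq_single i]
        · rw [pderiv_C_mul, pderiv_pow, pderiv_X_self]
          simp
          ring
        · intro j _ hj
          rw [pderiv_C_mul, pderiv_pow, pderiv_X_of_ne hj]
          simp
        · simp
      rw [map_sub, map_sub, h2] at h1
      rw [map_mul, eval_C]
      have h3 : (e * (2 * (D : ℝ) + 2)) ≠ 0 := by positivity
      field_simp
      linarith

end Vale.Agent.P054.W
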